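import Mathlib
import Crest.Prelude.Def_MassAction

/-!
Shared definitions for result 92 (S0122).
-/

set_option autoImplicit false

namespace Crest.Agent.R092
open Filter Crest.AnalysisR.MassAction

/-- Membership in the polytope `K_L`: all linear constraints at parameter `L` hold. -/
def Sat {d : ℕ} {ι : Type} (a : ι → Fin d → ℝ) (b : ι → ℝ → ℝ) (L : ℝ) (x : Fin d → ℝ) : Prop :=
  ∀ i, ∑ j, a i j * x j ≤ b i L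

/-- Compatibility of the normal vector `w` with the point `x`. -/
def Compat {d : ℕ} (Q : ℕ) (L : ℝ) (w x : Fin d → ℝ) : Prop :=
  ∀ v : Fin d → ℤ, (∀ j, |v j| ≤ (Q : ℤ)) → 0 < ∑ j, w j * (v j : ℝ) →
    L ≤ ∑ j, (v j : ℝ) * Real.log (x j)

/-- Part 1 (polytope family), owner helper590. -/
def Part1 : Prop :=
  ∀ (d : ℕ), 1 ≤ d → ∀ (Q : ℕ),
    ∃ (ι : Type) (_ : Fintype ι) (a : ι → Fin d → ℝ) (b : ι → ℝ → ℝ) (D : ℝ),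
      (∀ i, ContDiff ℝ 1 (b i)) ∧
      (∀ x : Fin d → ℝ, (∀ j, 0 < x j) → ∀ᶠ L in atTop, Sat a b L x) ∧
      (∀ᶠ L in atTop, ∀ x, Sat a b L x →
        ∀ j, Real.exp (-(D * L)) ≤ x j ∧ x j ≤ Real.exp (D * L)) ∧
      (∀ᶠ L in atTop, ∀ x, Sat a b L x →
        ∀ i, ∑ j, a i j * x j = b i L → Compat Q L (a i) x)

/-- Part 2 (field estimate). -/
def Part2 : Prop :=
  ∀ (d : ℕ) (R : Network d), IsWeaklyReversible R →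
    ∀ (k : (Fin d → ℕ) × (Fin d → ℕ) → ℝ), (∀ r ∈ R, 0 < k r) →
    ∀ (Q : ℕ), (∀ r ∈ R, ∀ j, r.1 j ≤ Q ∧ r.2 j ≤ Q) →
    ∀ (w : Fin d → ℝ), ∀ᶠ L in atTop, ∀ x : Fin d → ℝ, (∀ j, 0 < x j) → Compat Q L w x →
      (∀ r ∈ R, ∑ j, w j * reactionVector r j = 0) ∨ ∑ j, w j * field R k x j < 0

/-- Part 3 (dynamics) for an abstract `C¹` field. -/
def Part3 : Prop :=
  ∀ (d : ℕ) (F : (Fin d → ℝ) → (Fin d → ℝ)), ContDiff ℝ 1 F →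
    ∀ (S : Submodule ℝ (Fin d → ℝ)), (∀ x, F x ∈ S) →
    ∀ (c : Fin d → ℝ), (∀ i, 0 < c i) →
    ∀ (ι : Type) [Fintype ι] (a : ι → Fin d → ℝ) (b : ι → ℝ → ℝ) (D : ℝ),
      (∀ i, ContDiff ℝ 1 (b i)) →
      (∀ x : Fin d → ℝ, (∀ j, 0 < x j) → ∀ᶠ L in atTop, Sat a b L x) →
      (∀ᶠ L in atTop, ∀ x, Sat a b L x →
        ∀ j, Real.exp (-(D * L)) ≤ x j ∧ x j ≤ Real.exp (D * L)) →
      (∀ᶠ L in atTop, ∀ x, Sat a b L x →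
        ∀ i, ∑ j, a i j * x j = b i L →
          (∀ s ∈ S, ∑ j, a i j * s j = 0) ∨ ∑ j, a i j * F x j < 0) →
    ∃ K : Set (Fin d → ℝ), K ⊆ {x | (∀ i, 0 < x i) ∧ x - c ∈ S} ∧ K.Nonempty ∧ IsCompact K ∧
      Convex ℝ K ∧
      (∀ x : ℝ → (Fin d → ℝ), IsForwardSolution F x → x 0 ∈ K →
        ∀ t : ℝ, 0 ≤ t → x t ∈ K) ∧
      (∀ x₀ ∈ {x : Fin d → ℝ | (∀ i, 0 < x i) ∧ x - c ∈ S},
        (∃ x : ℝ → (Fin d → ℝ), IsForwardSolution F x ∧ x 0 = x₀) ∧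
        (∀ x x' : ℝ → (Fin d → ℝ), IsForwardSolution F x →
          IsForwardSolution F x' → x 0 = x₀ → x' 0 = x₀ →
          ∀ t : ℝ, 0 ≤ t → x t = x' t) ∧
        (∀ x : ℝ → (Fin d → ℝ), IsForwardSolution F x → x 0 = x₀ →
          (∀ t : ℝ, 0 ≤ t → ∀ i, 0 < x t i) ∧
          ∃ T : ℝ, 0 ≤ T ∧ ∀ t : ℝ, T ≤ t → x t ∈ K))

end Crest.Agent.R092
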