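import Mathlib
import Crest.Agent.R092.Interface

/-!
Statement of the core lemma of Part 1 (result 92): one family of nested roundings.
-/

set_option autoImplicit false

namespace Crest.Agent.R092
open Filter

/-- Gap property of `w`: integer vectors supported on the first `i` coordinates and bounded by `q`
give either `0` or at least `κ * U`. -/
def Gap (n i q : ℕ) (κ U : ℝ) (w : Fin n → ℝ) : Prop :=
  ∀ v : Fin n → ℤ, (∀ j, |v j| ≤ (q : ℤ)) → (∀ j : Fin n, i ≤ j.val → v j = 0) →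
    (∑ j, w j * (v j : ℝ) = 0 ∨ κ * U ≤ |∑ j, w j * (v j : ℝ)|)

/-- One member of the family: normal vector, discount, final uncertainty. -/
structure Leaf (n : ℕ) where
  w : Fin n → ℝ
  g : ℝ → ℝ
  U : ℝ

/-- The conclusion of the core lemma for a node with last prefix coordinate `p`, vector `w`
(constant from `p` on), uncertainty `U`, depth bound `M`. -/
def TreeConcl (n Q : ℕ) (p : Fin n) (w : Fin n → ℝ) (U M : ℝ) : Prop :=
  ∃ (ι : Type) (_ : Fintype ι) (T : ι → Leaf n),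
    (∃ i, (T i).w = w ∧ (T i).g = fun _ => 0) ∧
    (∀ i, (∀ j, j ≤ p → (T i).w j = w j) ∧ (∀ j j', p ≤ j → j ≤ j' → (T i).w j' ≤ (T i).w j) ∧
      ContDiff ℝ 1 (T i).g ∧
      (∃ C : ℝ, ∀ L : ℝ, 0 ≤ L → 0 ≤ (T i).g L ∧ (T i).g L ≤ C * Real.exp (L * (w p - U))) ∧
      U ≤ (T i).U ∧
      Gap n n Q (n * Q + 1) (T i).U (T i).w) ∧
    (∀ᶠ L in atTop, ∀ (B : ℝ) (x : Fin n → ℝ), (∀ j, 0 < x j) → Antitone x →
      Real.log (x p) ≤ L * (w p + U) → (∀ j, -(L * M) ≤ Real.log (x j)) →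
      (∀ i, ∑ j, (T i).w j * x j ≤ B - (T i).g L) →
      ∀ i, ∑ j, (T i).w j * x j = B - (T i).g L →
        ∀ j, p < j → |Real.log (x j) - L * (T i).w j| ≤ L * (T i).U)

/-- Core lemma: constants `q k`, `κ k` depend only on `n`, `Q` and the number `k` of remaining
coordinates. -/
def TreeStmt : Prop :=
  ∀ (n Q : ℕ), ∃ (q : ℕ → ℕ) (κ : ℕ → ℝ), (∀ k, Q ≤ q k) ∧ (∀ k, 1 ≤ κ k) ∧
    ∀ (p : Fin n) (k : ℕ), p.val + 1 + k = n →
      ∀ (w : Fin n → ℝ), (∀ j, p ≤ j → w j = w p) →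
      ∀ (U M : ℝ), 1 ≤ U → Gap n (p.val + 1) (q k) (κ k) U w → TreeConcl n Q p w U M

end Crest.Agent.R092
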