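import Mathlib
import Crest.Agent.R092.TreeStmt

/-!
Result 92, assembly of Part 1 from the core lemma, file 1: sorting and compatibility.
-/

set_option autoImplicit false

namespace Crest.Agent.R092
open Filter

lemma sum_swap_sub {d : ℕ} (a x : Fin d → ℝ) (u v : Fin d) (huv : u ≠ v) :
    ∑ j, a (Equiv.swap u v j) * x j = ∑ j, a j * x j + (a u - a v) * (x v - x u) := by
  have h : ∑ j, (a (Equiv.swap u v j) - a j) * x j
      = (a v - a u) * x u + (a u - a v) * x v := by
    rw [Finset.sum_eq_add (s := Finset.univ) u v huv]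
    · simp
    · intro c _ hc
      rw [Equiv.swap_apply_of_ne_of_ne hc.1 hc.2]; simp
    · intro h; exact absurd (Finset.mem_univ _) h
    · intro h; exact absurd (Finset.mem_univ _) h
  have h2 : ∑ j, (a (Equiv.swap u v j) - a j) * x j
      = ∑ j, a (Equiv.swap u v j) * x j - ∑ j, a j * x j := by
    rw [← Finset.sum_sub_distrib]
    exact Finset.sum_congr rfl (fun j _ => by ring)
  linarith

/-- sorting lemma -/
lemma exists_sorting {d : ℕ} (w : Fin d → ℝ) (hw : Antitone w) (σ : Equiv.Perm (Fin d))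
    (x : Fin d → ℝ) (b : ℝ)
    (hall : ∀ τ : Equiv.Perm (Fin d), ∑ j, w (τ j) * x j ≤ b)
    (hact : ∑ j, w (σ j) * x j = b) :
    ∃ τ : Equiv.Perm (Fin d), (∀ j, w (τ j) = w (σ j)) ∧ Antitone (fun j => x (τ.symm j)) := by
  let a : Fin d → ℝ := fun j => w (σ j)
  let f : Fin d → ℝ ×ₗ ℝ := fun j => toLex (-(a j), -(x j))
  let ρ := Tuple.sort f
  have hmono : Monotone (f ∘ ρ) := Tuple.monotone_sort f
  have hlex : ∀ j j', j ≤ j' → a (ρ j') < a (ρ j) ∨ (a (ρ j) = a (ρ j') ∧ x (ρ j') ≤ x (ρ j)) := by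
    intro j j' hjj
    have := hmono hjj
    simp only [Function.comp, f, Prod.Lex.toLex_le_toLex] at this
    rcases this with h | h
    · left; simpa using h
    · right; exact ⟨by simpa using h.1, by simpa using h.2⟩
  have hmono1 : Monotone ((fun j => -(a j)) ∘ ρ) := by
    intro j j' hjj
    rcases hlex j j' hjj with h | h
    · simp only [Function.comp]; linarith
    · simp only [Function.comp]; linarith [h.1]
  have hmono2 : Monotone ((fun j => -(a j)) ∘ (σ.symm : Equiv.Perm (Fin d))) := by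
    intro j j' hjj
    simp only [Function.comp, a, Equiv.apply_symm_apply]
    linarith [hw hjj]
  have heq := Tuple.unique_monotone hmono1 hmono2
  have haρ : ∀ j, a (ρ j) = w j := by
    intro j
    have := congrFun heq j
    simp only [Function.comp, a, Equiv.apply_symm_apply] at this
    simpa [a] using this
  refine ⟨ρ.symm, ?_, ?_⟩
  · intro j
    have := haρ (ρ.symm j)
    rw [Equiv.apply_symm_apply] at this
    exact this.symm
  · intro j j' hjj
    simp only [Equiv.symm_symm]
    rcases hlex j j' hjj with h | h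
    · by_contra hcon
      push Not at hcon
      have hne : ρ j ≠ ρ j' := by
        intro hh; rw [hh] at h; exact lt_irrefl _ h
      have h1 := hall (σ * Equiv.swap (ρ j) (ρ j'))
      have h2 := sum_swap_sub a x (ρ j) (ρ j') hne
      have h3 : ∑ j_1, w ((σ * Equiv.swap (ρ j) (ρ j')) j_1) * x j_1
          = ∑ j_1, a (Equiv.swap (ρ j) (ρ j') j_1) * x j_1 := rfl
      have h4 : ∑ j_1, a j_1 * x j_1 = b := hact
      rw [h3, h2, h4] at h1
      have : 0 < (a (ρ j) - a (ρ j')) * (x (ρ j') - x (ρ j)) :=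
        mul_pos (by linarith) (by linarith)
      linarith
    · exact h.2

/-- Compatibility from closeness of `log x` to `L * w`. -/
lemma compat_of_close {d : ℕ} (Q : ℕ) (L U : ℝ) (hL : 0 ≤ L) (hU : 1 ≤ U) (w y : Fin d → ℝ)
    (hgap : Gap d d Q (d * Q + 1) U w)
    (hclose : ∀ j, |Real.log (y j) - L * w j| ≤ L * U) :
    Compat Q L w y := by
  intro v hv hpos
  have h1 : (d * Q + 1 : ℝ) * U ≤ ∑ j, w j * (v j : ℝ) := by
    rcases hgap v hv (fun j hj => absurd j.2 (by omega)) with h | h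
    · exact absurd h (ne_of_gt hpos)
    · rwa [abs_of_pos hpos] at h
  have h2 : ∑ j, (v j : ℝ) * Real.log (y j) = L * ∑ j, w j * (v j : ℝ)
      + ∑ j, (v j : ℝ) * (Real.log (y j) - L * w j) := by
    rw [Finset.mul_sum, ← Finset.sum_add_distrib]
    exact Finset.sum_congr rfl (fun j _ => by ring)
  have h3 : |∑ j, (v j : ℝ) * (Real.log (y j) - L * w j)| ≤ (d * Q : ℝ) * (L * U) := by
    calc |∑ j, (v j : ℝ) * (Real.log (y j) - L * w j)|
        ≤ ∑ j : Fin d, |(v j : ℝ) * (Real.log (y j) - L * w j)| := Finset.abs_sum_le_sum_abs _ _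
      _ ≤ ∑ j : Fin d, (Q : ℝ) * (L * U) := by
          refine Finset.sum_le_sum (fun j _ => ?_)
          rw [abs_mul]
          have : |(v j : ℝ)| ≤ (Q : ℝ) := by exact_mod_cast hv j
          exact mul_le_mul this (hclose j) (abs_nonneg _) (by positivity)
      _ = (d * Q : ℝ) * (L * U) := by
          simp [Finset.sum_const]; ring
  have h4 : L * ((d * Q + 1 : ℝ) * U) ≤ L * ∑ j, w j * (v j : ℝ) := by gcongr
  have h5 := neg_abs_le (∑ j, (v j : ℝ) * (Real.log (y j) - L * w j))
  rw [h2]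
  nlinarith [mul_nonneg hL (by linarith : (0:ℝ) ≤ U - 1)]

lemma compat_perm {d : ℕ} (Q : ℕ) (L : ℝ) (w x : Fin d → ℝ) (τ : Equiv.Perm (Fin d))
    (h : Compat Q L w (fun j => x (τ.symm j))) :
    Compat Q L (fun j => w (τ j)) x := by
  intro v hv hpos
  have h1 := h (fun j => v (τ.symm j)) (fun j => hv _) ?_
  · have : ∑ j, ((v (τ.symm j) : ℤ) : ℝ) * Real.log (x (τ.symm j))
        = ∑ j, (v j : ℝ) * Real.log (x j) :=
      Equiv.sum_comp τ.symm (fun j => (v j : ℝ) * Real.log (x j))
    linarith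
  · have : ∑ j, w j * ((v (τ.symm j) : ℤ) : ℝ) = ∑ j, w (τ j) * (v j : ℝ) := by
      rw [← Equiv.sum_comp τ]
      simp
    linarith

end Crest.Agent.R092
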