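import Mathlib
import Crest.Agent.R092.Asm1

/-!
Result 92, assembly of Part 1 from the core lemma, file 2: scales, base vectors, estimates.
-/

set_option autoImplicit false

namespace Crest.Agent.R092
open Filter

/-- scales -/
noncomputable def scaleM (κ : ℕ → ℝ) (d : ℕ) : ℕ → ℝ
  | 0 => κ (d - 1)
  | (m + 1) => κ (d - 1 - m) * (scaleM κ d m + 1)

lemma scaleM_one_le (κ : ℕ → ℝ) (hκ : ∀ k, 1 ≤ κ k) (d : ℕ) : ∀ m, 1 ≤ scaleM κ d m := by
  intro m
  induction m with
  | zero => exact hκ _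
  | succ m ih =>
    have := hκ (d - 1 - m)
    simp only [scaleM]
    nlinarith

lemma scaleM_succ (κ : ℕ → ℝ) (hκ : ∀ k, 1 ≤ κ k) (d : ℕ) (m : ℕ) :
    scaleM κ d m + 1 ≤ scaleM κ d (m + 1) := by
  have h1 := scaleM_one_le κ hκ d m
  have := hκ (d - 1 - m)
  simp only [scaleM]
  nlinarith

lemma scaleM_mono (κ : ℕ → ℝ) (hκ : ∀ k, 1 ≤ κ k) (d : ℕ) : Monotone (scaleM κ d) :=
  monotone_nat_of_le_succ (fun m => by linarith [scaleM_succ κ hκ d m])

/-- base vector -/
noncomputable def baseW (d : ℕ) (Ms : ℕ → ℝ) : ℕ → Fin d → ℝ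
  | 0, _ => Ms 0
  | (m+1), j => if j.val < m then 0 else -(Ms (m+1))

/-- base uncertainty -/
noncomputable def baseU (Ms : ℕ → ℝ) : ℕ → ℝ
  | 0 => 1
  | (m+1) => Ms m + 1

/-- base exponent -/
noncomputable def baseS (Ms : ℕ → ℝ) : ℕ → ℝ
  | 0 => Ms 0
  | (m+1) => -(Ms (m+1))

/-- index of the first coordinate of the active cluster -/
def baseP (d : ℕ) (hd : 1 ≤ d) (m : ℕ) (hm : m ≤ d) : Fin d := ⟨m - 1, by omega⟩

lemma baseW_p (d : ℕ) (hd : 1 ≤ d) (Ms : ℕ → ℝ) (m : ℕ) (hm : m ≤ d) :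
    baseW d Ms m (baseP d hd m hm) = baseS Ms m := by
  cases m with
  | zero => rfl
  | succ m => simp [baseW, baseS, baseP]

lemma baseW_ge (d : ℕ) (hd : 1 ≤ d) (Ms : ℕ → ℝ) (m : ℕ) (hm : m ≤ d) (j : Fin d)
    (hj : baseP d hd m hm ≤ j) :
    baseW d Ms m j = baseW d Ms m (baseP d hd m hm) := by
  cases m with
  | zero => rfl
  | succ m =>
    have : m ≤ j.val := by simpa [baseP, Fin.le_def] using hj
    simp [baseW, baseP, this]

lemma baseU_one_le (Ms : ℕ → ℝ) (h : ∀ m, 1 ≤ Ms m) (m : ℕ) : 1 ≤ baseU Ms m := by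
  cases m with
  | zero => exact le_refl _
  | succ m => simp only [baseU]; linarith [h m]

lemma base_gap (d : ℕ) (hd : 1 ≤ d) (κ : ℕ → ℝ) (hκ : ∀ k, 1 ≤ κ k) (q : ℕ)
    (m : ℕ) (hm : m ≤ d) :
    Gap d ((baseP d hd m hm).val + 1) q (κ (d - 1 - (baseP d hd m hm).val))
      (baseU (scaleM κ d) m) (baseW d (scaleM κ d) m) := by
  intro v _ hv0
  have hsum : ∑ j, baseW d (scaleM κ d) m j * (v j : ℝ)
      = baseS (scaleM κ d) m * (v (baseP d hd m hm) : ℝ) := by
    rw [Finset.sum_eq_single (baseP d hd m hm)]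
    · rw [baseW_p]
    · intro j _ hj
      rcases lt_or_gt_of_ne hj with h | h
      · cases m with
        | zero => exact absurd h (by simp [baseP, Fin.lt_def])
        | succ m =>
          have : j.val < m := by simpa [baseP, Fin.lt_def] using h
          simp [baseW, this]
      · have : v j = 0 := hv0 j (by have := Fin.lt_def.1 h; omega)
        simp [this]
    · intro h; exact absurd (Finset.mem_univ _) h
  rw [hsum]
  by_cases hz : v (baseP d hd m hm) = 0
  · left; simp [hz]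
  · right
    have h1 : (1 : ℝ) ≤ |(v (baseP d hd m hm) : ℝ)| := by
      have : (1 : ℤ) ≤ |v (baseP d hd m hm)| := Int.one_le_abs hz
      exact_mod_cast this
    rw [abs_mul]
    have h2 : κ (d - 1 - (baseP d hd m hm).val) * baseU (scaleM κ d) m
        ≤ |baseS (scaleM κ d) m| := by
      cases m with
      | zero =>
        simp only [baseU, baseS, baseP, scaleM, mul_one]
        exact le_abs_self _
      | succ m =>
        simp only [baseU, baseS, baseP, abs_neg]
        have : scaleM κ d (m+1) = κ (d - 1 - m) * (scaleM κ d m + 1) := rfl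
        rw [this]
        simp only [Nat.add_sub_cancel]
        exact le_abs_self _
    calc _ ≤ |baseS (scaleM κ d) m| := h2
      _ = |baseS (scaleM κ d) m| * 1 := by ring
      _ ≤ _ := by gcongr

/-- eventually the discount is at most a small multiple of `exp (L s)`. -/
lemma eventually_cost_small (g : ℝ → ℝ) (s U c : ℝ) (hU : 1 ≤ U) (hc : 0 < c)
    (h : ∃ C : ℝ, ∀ L : ℝ, 0 ≤ L → 0 ≤ g L ∧ g L ≤ C * Real.exp (L * (s - U))) :
    ∀ᶠ L in atTop, 0 ≤ g L ∧ g L ≤ c * Real.exp (L * s) := by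
  obtain ⟨C, hC⟩ := h
  have h1 : Tendsto (fun L : ℝ => |C| * Real.exp (-L)) atTop (nhds (|C| * 0)) :=
    (Real.tendsto_exp_neg_atTop_nhds_zero).const_mul _
  rw [mul_zero] at h1
  have h2 : ∀ᶠ L in atTop, |C| * Real.exp (-L) < c := (tendsto_order.1 h1).2 c hc
  filter_upwards [h2, eventually_ge_atTop 0] with L hL hL0
  refine ⟨(hC L hL0).1, (hC L hL0).2.trans ?_⟩
  calc C * Real.exp (L * (s - U)) ≤ |C| * Real.exp (L * (s - U)) := by
        gcongr; exact le_abs_self C
    _ ≤ |C| * Real.exp (L * s + -L) := by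
        gcongr
        nlinarith
    _ = (|C| * Real.exp (-L)) * Real.exp (L * s) := by rw [Real.exp_add]; ring
    _ ≤ c * Real.exp (L * s) := by gcongr

end Crest.Agent.R092
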