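import Mathlib
import Crest.Agent.R092.Asm2

/-!
Result 92, assembly of Part 1 from the core lemma, file 3: closeness on the prefix.
-/

set_option autoImplicit false

namespace Crest.Agent.R092
open Filter

/-- tail sum -/
noncomputable def tailS {d : ℕ} (y : Fin d → ℝ) (m : ℕ) : ℝ := ∑ j, if j.val < m then 0 else y j

lemma tailS_succ {d : ℕ} (y : Fin d → ℝ) (m : Fin d) :
    tailS y m.val = y m + tailS y (m.val + 1) := by
  unfold tailS
  rw [← Finset.add_sum_erase _ _ (Finset.mem_univ m),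
    ← Finset.add_sum_erase (a := m) _ (fun j : Fin d => if j.val < m.val + 1 then 0 else y j)
      (Finset.mem_univ m)]
  simp only [lt_irrefl, if_false, Nat.lt_succ_self, if_true, zero_add]
  congr 1
  refine Finset.sum_congr rfl (fun j hj => ?_)
  have hne : j ≠ m := (Finset.mem_erase.1 hj).1
  have : j.val ≠ m.val := fun h => hne (Fin.ext h)
  by_cases h : j.val < m.val
  · rw [if_pos h, if_pos (by omega)]
  · rw [if_neg h, if_neg (by omega)]

lemma tailS_nonneg {d : ℕ} (y : Fin d → ℝ) (hy : ∀ j, 0 < y j) (m : ℕ) : 0 ≤ tailS y m := by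
  unfold tailS
  refine Finset.sum_nonneg (fun j _ => ?_)
  split_ifs
  · exact le_refl _
  · exact (hy j).le

lemma le_tailS {d : ℕ} (y : Fin d → ℝ) (hy : ∀ j, 0 < y j) (m : Fin d) : y m ≤ tailS y m.val := by
  rw [tailS_succ]
  linarith [tailS_nonneg y hy (m.val + 1)]

lemma tailS_le {d : ℕ} (y : Fin d → ℝ) (hy : ∀ j, 0 < y j) (ha : Antitone y) (m : Fin d) :
    tailS y m.val ≤ d * y m := by
  unfold tailS
  calc ∑ j : Fin d, (if j.val < m.val then 0 else y j) ≤ ∑ _j : Fin d, y m := by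
        refine Finset.sum_le_sum (fun j _ => ?_)
        split_ifs with h
        · exact (hy m).le
        · exact ha (Fin.le_def.2 (by omega))
    _ = d * y m := by simp

lemma sum_baseW_succ {d : ℕ} (Ms : ℕ → ℝ) (m : ℕ) (y : Fin d → ℝ) :
    ∑ j, baseW d Ms (m+1) j * y j = -(Ms (m+1)) * tailS y m := by
  unfold tailS
  rw [Finset.mul_sum]
  refine Finset.sum_congr rfl (fun j _ => ?_)
  simp only [baseW]
  split_ifs <;> simp

lemma close_zero {d : ℕ} (hd : 1 ≤ d) (s L : ℝ) (hs : 1 ≤ s) (hL : Real.log (2 * d) ≤ L)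
    (g : ℝ) (hg : g ≤ (1/2) * Real.exp (L * s)) (w y : Fin d → ℝ) (hy : ∀ j, 0 < y j)
    (hanti : Antitone y) (hw : ∀ j, w j ≤ s) (hroot : ∑ j, s * y j ≤ s * Real.exp (L * s))
    (hact : ∑ j, w j * y j = s * Real.exp (L * s) - g) :
    (∀ j, Real.log (y j) ≤ L * s) ∧ |Real.log (y ⟨0, hd⟩) - L * s| ≤ L := by
  have hL0 : 0 ≤ L := by
    refine le_trans (Real.log_nonneg ?_) hL
    have : (1 : ℝ) ≤ d := by exact_mod_cast hd
    linarith
  have hup : ∀ j, y j ≤ Real.exp (L * s) := by
    intro j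
    have h1 : s * y j ≤ ∑ j, s * y j :=
      Finset.single_le_sum (f := fun j => s * y j) (fun i _ => by have := hy i; positivity)
        (Finset.mem_univ j)
    have h2 : s * y j ≤ s * Real.exp (L * s) := h1.trans hroot
    exact le_of_mul_le_mul_left h2 (by linarith)
  have hlogup : ∀ j, Real.log (y j) ≤ L * s := by
    intro j
    have := Real.log_le_log (hy j) (hup j)
    rwa [Real.log_exp] at this
  refine ⟨hlogup, ?_⟩
  have hE := Real.exp_pos (L * s)
  have hdpos : (0 : ℝ) < d := by exact_mod_cast hd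
  have h3 : ∑ j, w j * y j ≤ s * (d * y ⟨0, hd⟩) := by
    calc ∑ j, w j * y j ≤ ∑ _j : Fin d, s * y ⟨0, hd⟩ := by
          refine Finset.sum_le_sum (fun j _ => ?_)
          have h1 : y j ≤ y ⟨0, hd⟩ := hanti (Fin.le_def.2 (Nat.zero_le _))
          have h2 := hy j
          calc w j * y j ≤ s * y j := by gcongr; exact hw j
            _ ≤ s * y ⟨0, hd⟩ := by gcongr
      _ = s * (d * y ⟨0, hd⟩) := by simp; ring
  have h4 : Real.exp (L * s) / (2 * d) ≤ y ⟨0, hd⟩ := by
    rw [div_le_iff₀ (by positivity)]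
    have h5 : (1/2) * s * Real.exp (L * s) ≤ s * (d * y ⟨0, hd⟩) := by
      nlinarith
    have h6 : s * ((1/2) * Real.exp (L * s)) ≤ s * (d * y ⟨0, hd⟩) := by linarith
    have h7 := le_of_mul_le_mul_left h6 (by linarith)
    linarith
  have h5 : L * s - Real.log (2 * d) ≤ Real.log (y ⟨0, hd⟩) := by
    have := Real.log_le_log (by positivity) h4
    rwa [Real.log_div (by positivity) (by positivity), Real.log_exp] at this
  rw [abs_le]
  constructor
  · linarith
  · linarith [hlogup ⟨0, hd⟩]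

lemma close_succ {d : ℕ} (m : Fin d) (M L : ℝ) (hM : 1 ≤ M)
    (hL : Real.log (2 * d) ≤ L)
    (g : ℝ) (hg : g ≤ (1/2) * Real.exp (L * (-M))) (w y : Fin d → ℝ)
    (hy : ∀ j, 0 < y j)
    (hanti : Antitone y) (hw0 : ∀ j, j < m → w j = 0) (hw : ∀ j, m ≤ j → w j ≤ -M)
    (hroot : -M * tailS y m.val ≤ -M * Real.exp (L * (-M)))
    (hact : ∑ j, w j * y j = -M * Real.exp (L * (-M)) - g) :
    |Real.log (y m) - L * (-M)| ≤ L ∧ tailS y m.val ≤ 2 * Real.exp (L * (-M)) := by
  have hE := Real.exp_pos (L * (-M))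
  have hd : 0 < d := lt_of_le_of_lt (Nat.zero_le _) m.2
  have hdpos : (0 : ℝ) < d := by exact_mod_cast hd
  have hd1 : (1 : ℝ) ≤ d := by exact_mod_cast hd
  have h1 : ∑ j, w j * y j ≤ -M * tailS y m.val := by
    unfold tailS
    rw [Finset.mul_sum]
    refine Finset.sum_le_sum (fun j _ => ?_)
    split_ifs with h
    · rw [hw0 j (Fin.lt_def.2 h)]; simp
    · have := hy j
      have h2 := hw j (Fin.le_def.2 (by omega))
      gcongr
  have h2 : tailS y m.val ≤ 2 * Real.exp (L * (-M)) := by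
    have : M * tailS y m.val ≤ M * (2 * Real.exp (L * (-M))) := by nlinarith
    exact le_of_mul_le_mul_left this (by linarith)
  have h3 : Real.exp (L * (-M)) ≤ tailS y m.val := by
    have : M * Real.exp (L * (-M)) ≤ M * tailS y m.val := by linarith
    exact le_of_mul_le_mul_left this (by linarith)
  have h4 := le_tailS y hy m
  have h5 := tailS_le y hy hanti m
  refine ⟨?_, h2⟩
  have h6 : Real.log (y m) ≤ Real.log 2 + L * (-M) := by
    have := Real.log_le_log (hy m) (h4.trans h2)
    rwa [Real.log_mul (by norm_num) hE.ne', Real.log_exp] at this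
  have h7 : L * (-M) - Real.log d ≤ Real.log (y m) := by
    have h8 : Real.exp (L * (-M)) / d ≤ y m := by
      rw [div_le_iff₀ hdpos]; linarith
    have := Real.log_le_log (by positivity) h8
    rwa [Real.log_div hE.ne' hdpos.ne', Real.log_exp] at this
  have h9 : Real.log (2 * d) = Real.log 2 + Real.log d := Real.log_mul (by norm_num) hdpos.ne'
  have h10 : 0 ≤ Real.log 2 := Real.log_nonneg (by norm_num)
  have h11 : 0 ≤ Real.log d := Real.log_nonneg hd1
  rw [abs_le]
  constructor <;> linarith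

/-- lower bound for the coordinates in front of the active cluster -/
lemma front_lower {d : ℕ} (m : Fin d) (M' M L : ℝ) (hM : M' + 1 ≤ M)
    (hL : Real.log 4 ≤ L) (y : Fin d → ℝ) (hy : ∀ j, 0 < y j) (hanti : Antitone y)
    (hprev : Real.exp (L * (-M')) ≤ tailS y m.val)
    (hnext : tailS y (m.val + 1) ≤ 2 * Real.exp (L * (-M))) (j : Fin d) (hj : j ≤ m) :
    -(L * (M' + 1)) ≤ Real.log (y j) := by
  have hL0 : 0 ≤ L := le_trans (Real.log_nonneg (by norm_num)) hL
  have h1 : Real.exp (-L) ≤ 1/4 := by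
    have : Real.exp (-L) ≤ Real.exp (-(Real.log 4)) := Real.exp_le_exp.2 (by linarith)
    rwa [Real.exp_neg (Real.log 4), Real.exp_log (by norm_num), ← one_div] at this
  have h2 : Real.exp (L * (-M)) ≤ (1/4) * Real.exp (L * (-M')) := by
    calc Real.exp (L * (-M)) ≤ Real.exp (-L + L * (-M')) := Real.exp_le_exp.2 (by nlinarith)
      _ = Real.exp (-L) * Real.exp (L * (-M')) := Real.exp_add _ _
      _ ≤ (1/4) * Real.exp (L * (-M')) := by gcongr
  have h3 : (1/2) * Real.exp (L * (-M')) ≤ y m := by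
    have := tailS_succ y m
    linarith
  have h4 : (1/2) * Real.exp (L * (-M')) ≤ y j := h3.trans (hanti hj)
  have h5 := Real.log_le_log (by positivity) h4
  rw [Real.log_mul (by norm_num) (Real.exp_pos _).ne', Real.log_exp] at h5
  have h6 : Real.log (1/2 : ℝ) = - Real.log 2 := by
    rw [one_div, Real.log_inv]
  have h7 : Real.log 4 = 2 * Real.log 2 := by
    rw [show (4:ℝ) = 2^2 by norm_num, Real.log_pow]; norm_num
  have h8 : 0 ≤ Real.log 2 := Real.log_nonneg (by norm_num)
  rw [h6] at h5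
  nlinarith

end Crest.Agent.R092
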