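import Mathlib
import Crest.Agent.R092.Asm3

/-!
Result 92, assembly of Part 1 from the core lemma, file 4: the theorem `part1_of_tree`.
-/

set_option autoImplicit false

namespace Crest.Agent.R092
open Filter

lemma sum_perm {d : ℕ} (w x : Fin d → ℝ) (τ : Equiv.Perm (Fin d)) :
    ∑ j, w (τ j) * x j = ∑ j, w j * x (τ.symm j) := by
  rw [← Equiv.sum_comp τ (fun j => w j * x (τ.symm j))]
  simp

theorem part1_of_tree (hTree : TreeStmt) : Part1 := by
  intro d hd Q
  obtain ⟨q, κ, hq, hκ, hT⟩ := hTree d Q
  set Ms : ℕ → ℝ := scaleM κ d with hMsdef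
  have hM1 : ∀ m, 1 ≤ Ms m := scaleM_one_le κ hκ d
  have hMs : ∀ m, Ms m + 1 ≤ Ms (m+1) := scaleM_succ κ hκ d
  have hMmono : Monotone Ms := scaleM_mono κ hκ d
  have htree : ∀ m : Fin (d+1), TreeConcl d Q (baseP d hd m.val (by omega))
      (baseW d Ms m.val) (baseU Ms m.val) (Ms d) := by
    intro m
    refine hT (baseP d hd m.val (by omega)) (d - 1 - (baseP d hd m.val (by omega)).val) ?_
      (baseW d Ms m.val) ?_ (baseU Ms m.val) (Ms d) (baseU_one_le Ms hM1 _)
      (base_gap d hd κ hκ _ m.val (by omega))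
    · simp only [baseP]; omega
    · intro j hj
      exact baseW_ge d hd Ms m.val _ j hj
  choose ι hι T hT1 hT2 hT3 using htree
  -- notation
  have hSp : ∀ m : Fin (d+1), baseW d Ms m.val (baseP d hd m.val (by omega)) = baseS Ms m.val :=
    fun m => baseW_p d hd Ms m.val _
  -- antitone leaves
  have hwanti : ∀ (m : Fin (d+1)) (i : ι m), Antitone (T m i).w := by
    intro m i
    obtain ⟨h1, h2, _⟩ := hT2 m i
    intro j j' hjj
    rcases le_total (baseP d hd m.val (by omega)) j with hj | hj
    · exact h2 j j' hj hjj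
    · have hwle : ∀ j0 ≤ baseP d hd m.val (by omega), ∀ j1 ≤ baseP d hd m.val (by omega), j0 ≤ j1 →
          baseW d Ms m.val j1 ≤ baseW d Ms m.val j0 := by
        intro j0 hj0 j1 hj1 h01
        obtain ⟨m, hm⟩ := m
        cases m with
        | zero => exact le_refl _
        | succ m =>
          simp only [baseW]
          split_ifs with ha hb hb
          · exact le_refl _
          · have := Fin.le_def.1 h01; omega
          · linarith [hM1 (m+1)]
          · exact le_refl _
      rcases le_total j' (baseP d hd m.val (by omega)) with hj' | hj'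
      · rw [h1 j hj, h1 j' hj']
        exact hwle j hj j' hj' hjj
      · calc (T m i).w j' ≤ (T m i).w (baseP d hd m.val (by omega)) := h2 _ _ (le_refl _) hj'
          _ = baseW d Ms m.val (baseP d hd m.val (by omega)) := h1 _ (le_refl _)
          _ ≤ baseW d Ms m.val j := hwle j hj _ (le_refl _) hj
          _ = (T m i).w j := (h1 j hj).symm
  -- costs
  have hcost : ∀ᶠ L in atTop, ∀ (m : Fin (d+1)) (i : ι m),
      0 ≤ (T m i).g L ∧ (T m i).g L ≤ (1/2) * Real.exp (L * baseS Ms m.val) := by
    refine eventually_all.2 (fun m => ?_)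
    have := hι m
    refine eventually_all.2 (fun i => ?_)
    obtain ⟨_, _, _, h4, _⟩ := hT2 m i
    have h5 := eventually_cost_small (T m i).g (baseW d Ms m.val (baseP d hd m.val (by omega)))
      (baseU Ms m.val) (1/2) (baseU_one_le Ms hM1 _) (by norm_num) h4
    rw [hSp m] at h5
    exact h5
  let a : (Σ m : Fin (d+1), (ι m × Equiv.Perm (Fin d))) → Fin d → ℝ :=
    fun i j => (T i.1 i.2.1).w (i.2.2 j)
  let b : (Σ m : Fin (d+1), (ι m × Equiv.Perm (Fin d))) → ℝ → ℝ :=
    fun i L => baseS Ms i.1.val * Real.exp (L * baseS Ms i.1.val) - (T i.1 i.2.1).g L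
  have hroot : ∀ (L : ℝ) (x : Fin d → ℝ), Sat a b L x → ∀ (m : Fin (d+1)) (τ : Equiv.Perm (Fin d)),
      ∑ j, baseW d Ms m.val j * x (τ.symm j) ≤ baseS Ms m.val * Real.exp (L * baseS Ms m.val) := by
    intro L x hx m τ
    obtain ⟨i0, hw0, hg0⟩ := hT1 m
    have h := hx ⟨m, i0, τ⟩
    simp only [a, b] at h
    rw [hw0, hg0, sum_perm] at h
    simpa using h
  have hposlow : ∀ (L : ℝ) (x : Fin d → ℝ), Sat a b L x → ∀ j, Real.exp (L * (-(Ms d))) ≤ x j := by
    intro L x hx j
    obtain ⟨d', rfl⟩ : ∃ d', d = d' + 1 := ⟨d - 1, by omega⟩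
    have h := hroot L x hx (Fin.last (d'+1)) (Equiv.swap j (Fin.last d'))
    simp only [Fin.val_last] at h
    rw [sum_baseW_succ] at h
    have h2 : tailS (fun j_1 => x ((Equiv.swap j (Fin.last d')).symm j_1)) d' = x j := by
      unfold tailS
      rw [Finset.sum_eq_single (Fin.last d')]
      · simp
      · intro j' _ hne
        have : j'.val ≠ d' := fun h => hne (Fin.ext (by simpa using h))
        have h3 := j'.2
        rw [if_pos (by omega)]
      · intro h; exact absurd (Finset.mem_univ _) h
    rw [h2] at h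
    simp only [baseS] at h
    have h3 : 0 < Ms (d'+1) := by linarith [hM1 (d'+1)]
    have h4 : Ms (d'+1) * Real.exp (L * (-(Ms (d'+1)))) ≤ Ms (d'+1) * x j := by linarith
    exact le_of_mul_le_mul_left h4 h3
  have hup : ∀ (L : ℝ) (x : Fin d → ℝ), Sat a b L x → ∀ j, x j ≤ Real.exp (L * Ms 0) := by
    intro L x hx j
    have hpos : ∀ j, 0 < x j := fun j => lt_of_lt_of_le (Real.exp_pos _) (hposlow L x hx j)
    have h := hroot L x hx 0 (Equiv.refl _)
    have h1 : Ms 0 * x j ≤ ∑ j, Ms 0 * x j :=
      Finset.single_le_sum (f := fun j => Ms 0 * x j)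
        (fun i _ => by have := hpos i; have := hM1 0; positivity) (Finset.mem_univ j)
    have h2 : ∑ j, Ms 0 * x j ≤ Ms 0 * Real.exp (L * Ms 0) := by
      simpa [baseW, baseS] using h
    exact le_of_mul_le_mul_left (h1.trans h2) (by linarith [hM1 0])
  have hfinι : ∀ m : Fin (d+1), Fintype (ι m) := hι
  refine ⟨Σ m : Fin (d+1), (ι m × Equiv.Perm (Fin d)), inferInstance, a, b, Ms d, ?_, ?_, ?_, ?_⟩
  · -- C^1
    intro i
    obtain ⟨_, _, h3, _⟩ := hT2 i.1 i.2.1
    refine ContDiff.sub ?_ h3
    exact contDiff_const.mul ((contDiff_id.mul contDiff_const).exp)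
  · -- (A)
    intro x hx
    have : Finite (Σ m : Fin (d+1), (ι m × Equiv.Perm (Fin d))) := Finite.of_fintype _
    refine eventually_all.2 (fun i => ?_)
    obtain ⟨⟨m, hm⟩, i, σ⟩ := i
    have hexp0 : ∀ s : ℝ, s < 0 → Tendsto (fun L : ℝ => Real.exp (L * s)) atTop (nhds 0) := by
      intro s hs
      exact Real.tendsto_exp_atBot.comp (tendsto_id.atTop_mul_const_of_neg hs)
    have hexp1 : ∀ s : ℝ, 0 < s → Tendsto (fun L : ℝ => Real.exp (L * s)) atTop atTop := by
      intro s hs
      exact Real.tendsto_exp_atTop.comp (tendsto_id.atTop_mul_const hs)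
    obtain ⟨h1, _, _⟩ := hT2 ⟨m, hm⟩ i
    cases m with
    | zero =>
      have h2 := (hexp1 (Ms 0) (by linarith [hM1 0])).eventually_ge_atTop
        (2 * |∑ j, (T ⟨0, hm⟩ i).w (σ j) * x j|)
      filter_upwards [h2, hcost] with L hL hc
      have h3 := hc ⟨0, hm⟩ i
      simp only [baseS] at h3
      simp only [a, b, baseS]
      have h4 := le_abs_self (∑ j, (T ⟨0, hm⟩ i).w (σ j) * x j)
      have h5 : Real.exp (L * Ms 0) ≤ Ms 0 * Real.exp (L * Ms 0) := by
        nlinarith [hM1 0, Real.exp_pos (L * Ms 0)]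
      linarith [h3.2]
    | succ m =>
      have hmd : m < d := by omega
      have hle : ∀ j, (T ⟨m+1, hm⟩ i).w j ≤ 0 := by
        intro j
        have h3 := hwanti ⟨m+1, hm⟩ i (Fin.le_def.2 (Nat.zero_le j.val) : (⟨0, hd⟩ : Fin d) ≤ j)
        refine h3.trans ?_
        rw [h1 ⟨0, hd⟩ (Fin.le_def.2 (Nat.zero_le _))]
        simp only [baseW]
        split_ifs
        · exact le_refl _
        · linarith [hM1 (m+1)]
      have hp : (T ⟨m+1, hm⟩ i).w ⟨m, hmd⟩ = -(Ms (m+1)) := by
        have := h1 ⟨m, hmd⟩ (Fin.le_def.2 (by simp [baseP]))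
        rw [this]
        simp [baseW]
      have hLHS : ∑ j, (T ⟨m+1, hm⟩ i).w (σ j) * x j ≤ -(Ms (m+1)) * x (σ.symm ⟨m, hmd⟩) := by
        rw [sum_perm, ← Finset.add_sum_erase _ _ (Finset.mem_univ (⟨m, hmd⟩ : Fin d)), hp]
        have : ∑ j ∈ Finset.univ.erase (⟨m, hmd⟩ : Fin d), (T ⟨m+1, hm⟩ i).w j * x (σ.symm j) ≤ 0 :=
          Finset.sum_nonpos (fun j _ => mul_nonpos_of_nonpos_of_nonneg (hle j) (hx _).le)
        linarith
      have hxp := hx (σ.symm ⟨m, hmd⟩)
      have h2 := (tendsto_order.1 (hexp0 (-(Ms (m+1))) (by linarith [hM1 (m+1)]))).2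
        (x (σ.symm ⟨m, hmd⟩) / 2) (by positivity)
      filter_upwards [h2, hcost] with L hL hc
      have h3 := (hc ⟨m+1, hm⟩ i).2
      simp only [baseS] at h3
      simp only [a, b, baseS]
      refine hLHS.trans ?_
      have hE := Real.exp_pos (L * -Ms (m + 1))
      have := hM1 (m+1)
      nlinarith
  · -- (B)
    filter_upwards [eventually_ge_atTop (0:ℝ)] with L hL x hx j
    constructor
    · have := hposlow L x hx j
      rwa [show L * (-(Ms d)) = -(Ms d * L) by ring] at this
    · refine (hup L x hx j).trans ?_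
      rw [show L * Ms 0 = Ms 0 * L by ring]
      exact Real.exp_le_exp.2 (mul_le_mul_of_nonneg_right (hMmono (Nat.zero_le d)) hL)
  · -- (C)
    have hT3' := eventually_all.2 hT3
    filter_upwards [hT3', hcost, eventually_ge_atTop (0:ℝ), eventually_ge_atTop (Real.log (2 * d)),
      eventually_ge_atTop (Real.log 4)] with L hTL hc hL0 hL2 hL4 x hx i hact
    obtain ⟨m, i, σ⟩ := i
    have hpos : ∀ j, 0 < x j := fun j => lt_of_lt_of_le (Real.exp_pos _) (hposlow L x hx j)
    obtain ⟨τ, hτw, hτx⟩ := exists_sorting (T m i).w (hwanti m i) σ x _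
      (fun τ => hx ⟨m, i, τ⟩) hact
    set y : Fin d → ℝ := fun j => x (τ.symm j) with hy
    have hypos : ∀ j, 0 < y j := fun j => hpos _
    have hyall : ∀ i', ∑ j, (T m i').w j * y j ≤
        baseS Ms m.val * Real.exp (L * baseS Ms m.val) - (T m i').g L := by
      intro i'
      have h := hx ⟨m, i', τ⟩
      simp only [a, b] at h
      rwa [sum_perm] at h
    have hyact : ∑ j, (T m i).w j * y j =
        baseS Ms m.val * Real.exp (L * baseS Ms m.val) - (T m i).g L := by
      have h := hact
      simp only [a, b] at h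
      rw [← h, hy, ← sum_perm]
      exact Finset.sum_congr rfl (fun j _ => by rw [hτw j])
    have hylow : ∀ j, -(L * Ms d) ≤ Real.log (y j) := by
      intro j
      have h1 := hposlow L x hx (τ.symm j)
      have h2 := Real.log_le_log (Real.exp_pos _) h1
      rw [Real.log_exp] at h2
      simp only [hy]; linarith
    have hyup : ∀ j, Real.log (y j) ≤ L * Ms 0 := by
      intro j
      have h1 := hup L x hx (τ.symm j)
      have h2 := Real.log_le_log (hypos j) h1
      rwa [Real.log_exp] at h2
    obtain ⟨h1, h2, _, _, hU, hgap⟩ := hT2 m i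
    have hUpos : 1 ≤ (T m i).U := le_trans (baseU_one_le Ms hM1 m.val) hU
    -- closeness on the prefix
    have hpre : ∀ j, j ≤ baseP d hd m.val (by omega) →
        |Real.log (y j) - L * (T m i).w j| ≤ L * baseU Ms m.val := by
      obtain ⟨m, hm⟩ := m
      cases m with
      | zero =>
        intro j hj
        have hj0 : j = ⟨0, hd⟩ := Fin.ext (by have := Fin.le_def.1 hj; simp [baseP] at this; simpa using this)
        subst hj0
        have h3 := (close_zero hd (Ms 0) L (hM1 0) hL2 ((T ⟨0, hm⟩ i).g L) (hc ⟨0, hm⟩ i).2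
          (T ⟨0, hm⟩ i).w y hypos hτx ?_ ?_ hyact).2
        · rw [h1 _ hj]
          simpa [baseW, baseU] using h3
        · intro j
          refine (hwanti ⟨0, hm⟩ i (Fin.le_def.2 (Nat.zero_le j.val) : (⟨0, hd⟩ : Fin d) ≤ j)).trans ?_
          rw [h1 _ hj]
          exact le_refl _
        · have := hroot L x hx ⟨0, hm⟩ τ
          simpa [baseW, baseS] using this
      | succ m =>
        have hmd : m < d := by omega
        have hroot1 := hroot L x hx ⟨m+1, hm⟩ τ
        simp only at hroot1
        rw [sum_baseW_succ] at hroot1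
        have hcl := close_succ (⟨m, hmd⟩ : Fin d) (Ms (m+1)) L (hM1 _) hL2
          ((T ⟨m+1, hm⟩ i).g L) (hc ⟨m+1, hm⟩ i).2 (T ⟨m+1, hm⟩ i).w y hypos hτx ?_ ?_ hroot1 hyact
        · intro j hj
          have hjm : j.val ≤ m := by simpa [baseP, Fin.le_def] using hj
          rcases Nat.lt_or_eq_of_le hjm with hlt | heq
          · -- zero cluster
            have hw0 : (T ⟨m+1, hm⟩ i).w j = 0 := by
              rw [h1 j hj]; simp [baseW, hlt]
            rw [hw0]
            obtain ⟨m', rfl⟩ : ∃ m', m = m' + 1 := ⟨m - 1, by omega⟩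
            have hroot2 := hroot L x hx ⟨m'+1, by omega⟩ τ
            simp only at hroot2
            rw [sum_baseW_succ] at hroot2
            simp only [baseS] at hroot2
            have hprev : Real.exp (L * (-(Ms (m'+1)))) ≤ tailS y m' := by
              have h3 : Ms (m'+1) * Real.exp (L * (-(Ms (m'+1)))) ≤ Ms (m'+1) * tailS y m' := by
                simp only [hy]; linarith
              exact le_of_mul_le_mul_left h3 (by linarith [hM1 (m'+1)])
            have hlow := front_lower (⟨m', by omega⟩ : Fin d) (Ms (m'+1)) (Ms (m'+1+1)) L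
              (hMs (m'+1)) hL4 y hypos hτx hprev hcl.2 j (Fin.le_def.2 (by simp; omega))
            have hupj := hyup j
            have hmono := hMmono (Nat.zero_le (m'+1))
            simp only [baseU]
            rw [abs_le]
            constructor
            · linarith
            · nlinarith
          · have hjeq : j = ⟨m, hmd⟩ := Fin.ext heq
            subst hjeq
            rw [h1 _ hj]
            have h3 : baseW d Ms (m+1) ⟨m, hmd⟩ = -(Ms (m+1)) := by simp [baseW]
            simp only at h3 ⊢
            rw [h3]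
            refine hcl.1.trans ?_
            simp only [baseU]
            nlinarith [hM1 m]
        · intro j hj
          rw [h1 j (Fin.le_def.2 (by have := Fin.lt_def.1 hj; simp [baseP] at this ⊢; omega))]
          simp only [baseW]
          rw [if_pos (Fin.lt_def.1 hj)]
        · intro j hj
          refine (hwanti ⟨m+1, hm⟩ i hj).trans ?_
          rw [h1 _ (Fin.le_def.2 (by simp [baseP]))]
          simp [baseW]
    have hlogp : Real.log (y (baseP d hd m.val (by omega))) ≤
        L * (baseW d Ms m.val (baseP d hd m.val (by omega)) + baseU Ms m.val) := by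
      have h3 := hpre _ (le_refl _)
      rw [h1 _ (le_refl _)] at h3
      have h4 := (abs_le.1 h3).2
      linarith
    have hrest := hTL m (baseS Ms m.val * Real.exp (L * baseS Ms m.val)) y hypos hτx hlogp hylow
      hyall i hyact
    have hclose : ∀ j, |Real.log (y j) - L * (T m i).w j| ≤ L * (T m i).U := by
      intro j
      rcases le_or_gt j (baseP d hd m.val (by omega)) with hj | hj
      · refine (hpre j hj).trans ?_
        gcongr
      · exact hrest j hj
    have hcomp := compat_of_close Q L (T m i).U hL0 hUpos (T m i).w y hgap hclose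
    have hcomp2 := compat_perm Q L (T m i).w x τ hcomp
    have : a ⟨m, i, σ⟩ = fun j => (T m i).w (τ j) := by
      funext j
      exact (hτw j).symm
    rw [this]
    exact hcomp2

end Crest.Agent.R092
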