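import Crest.Agent.R092.Interface

/-!
Result 92, Part 3: dynamics of an abstract `C¹` field with a family of moving polytopes.
-/

set_option autoImplicit false

namespace Crest.Agent.R092.Dyn

open Filter Topology Set Crest.AnalysisR.MassAction

/-- A function with negative right derivative is eventually smaller on the right. -/
lemma eventually_lt_of_deriv_neg {f : ℝ → ℝ} {m t : ℝ} (hf : HasDerivWithinAt f m (Ici t) t)
    (hm : m < 0) : ∀ᶠ s in 𝓝[>] t, f s < f t := by
  have h1 : Tendsto (slope f t) (𝓝[>] t) (𝓝 m) := by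
    have := hasDerivWithinAt_iff_tendsto_slope.1 hf
    rwa [Ici_sdiff_left] at this
  have h2 := h1.eventually (gt_mem_nhds hm)
  filter_upwards [h2, self_mem_nhdsWithin] with s hs hst
  rw [slope_def_field, div_lt_iff₀ (sub_pos.2 hst)] at hs
  linarith

/-- First exit lemma. -/
lemma exit {ι : Type} [Fintype ι] {T : ℝ} (f : ι → ℝ → ℝ)
    (hc : ∀ i, ContinuousOn (f i) (Icc 0 T)) (h0 : ∀ i, f i 0 ≤ 0)
    (hd : ∀ t ∈ Ico 0 T, (∀ i, f i t ≤ 0) → ∀ i, f i t = 0 → ∀ᶠ s in 𝓝[>] t, f i s ≤ 0) :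
    ∀ t ∈ Icc 0 T, ∀ i, f i t ≤ 0 := by
  have key : Icc 0 T ⊆ {t | ∀ i, f i t ≤ 0} := by
    refine IsClosed.Icc_subset_of_forall_mem_nhdsWithin ?_ h0 ?_
    · have h1 : {t | ∀ i, f i t ≤ 0} ∩ Icc 0 T = Icc 0 T ∩ ⋂ i, (Icc 0 T ∩ f i ⁻¹' Iic 0) := by
        ext t
        simp only [mem_inter_iff, mem_ofPred_eq, mem_iInter, mem_preimage, mem_Iic]
        constructor
        · rintro ⟨h, ht⟩
          exact ⟨ht, fun i => ⟨ht, h i⟩⟩
        · rintro ⟨ht, h⟩
          exact ⟨fun i => (h i).2, ht⟩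
      rw [h1]
      exact isClosed_Icc.inter (isClosed_iInter fun i =>
        (hc i).preimage_isClosed_of_isClosed isClosed_Icc isClosed_Iic)
    · rintro t ⟨ht, htT⟩
      have ht' : ∀ i, f i t ≤ 0 := ht
      have hall : ∀ i, ∀ᶠ s in 𝓝[>] t, f i s ≤ 0 := by
        intro i
        rcases (ht' i).lt_or_eq with hlt | heq
        · have hcw : ContinuousWithinAt (f i) (Icc 0 T) t := hc i t (Ico_subset_Icc_self htT)
          have h2 : ∀ᶠ s in 𝓝[Icc 0 T] t, f i s < 0 := hcw.eventually (gt_mem_nhds hlt)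
          have h3 : 𝓝[>] t ≤ 𝓝[Icc 0 T] t := by
            refine nhdsWithin_le_of_mem ?_
            exact mem_of_superset (Ioc_mem_nhdsGT htT.2)
              (fun s hs => ⟨htT.1.trans hs.1.le, hs.2⟩)
          have h4 : ∀ᶠ s in 𝓝[>] t, f i s < 0 := h3 h2
          exact h4.mono fun s hs => le_of_lt hs
        · exact hd t htT ht' i heq
      exact (eventually_all.2 hall)
  exact fun t ht => key ht

lemma hasDeriv_dot {d : ℕ} (w : Fin d → ℝ) {x : ℝ → Fin d → ℝ} {x' : Fin d → ℝ} {s : Set ℝ} {t : ℝ}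
    (h : HasDerivWithinAt x x' s t) :
    HasDerivWithinAt (fun t => ∑ j, w j * x t j) (∑ j, w j * x' j) s t :=
  HasDerivWithinAt.fun_sum fun j _ => ((hasDerivWithinAt_pi.1 h) j).const_mul (w j)

lemma IsForwardSolution.hasDeriv_Ici {d : ℕ} {F : (Fin d → ℝ) → (Fin d → ℝ)}
    {x : ℝ → (Fin d → ℝ)} (hx : IsForwardSolution F x) {t : ℝ} (ht : 0 ≤ t) :
    HasDerivWithinAt x (F (x t)) (Ici t) t :=
  (hx t ht).mono (Ici_subset_Ici.2 ht)

lemma IsForwardSolution.continuousOn {d : ℕ} {F : (Fin d → ℝ) → (Fin d → ℝ)}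
    {x : ℝ → (Fin d → ℝ)} (hx : IsForwardSolution F x) : ContinuousOn x (Ici 0) :=
  fun t ht => (hx t ht).continuousWithinAt

lemma IsForwardSolution.shift {d : ℕ} {F : (Fin d → ℝ) → (Fin d → ℝ)}
    {x : ℝ → (Fin d → ℝ)} (hx : IsForwardSolution F x) {τ : ℝ} (hτ : 0 ≤ τ) :
    IsForwardSolution F (fun t => x (t + τ)) := by
  intro t ht
  have h1 := hx (t + τ) (by positivity)
  have h2 : HasDerivWithinAt (fun t : ℝ => t + τ) 1 (Ici 0) t :=
    (hasDerivWithinAt_id t _).add_const τ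
  have h3 := HasDerivWithinAt.scomp t h1 h2 (fun s hs => by
    have : (0 : ℝ) ≤ s := hs
    show (0 : ℝ) ≤ s + τ
    positivity)
  rw [one_smul] at h3
  exact h3

/-- Solutions stay in their class. -/
lemma sub_mem_of_solution {d : ℕ} {F : (Fin d → ℝ) → (Fin d → ℝ)} {S : Submodule ℝ (Fin d → ℝ)}
    (hFS : ∀ x, F x ∈ S) {x : ℝ → (Fin d → ℝ)} (hx : IsForwardSolution F x) {t : ℝ}
    (ht : 0 ≤ t) : x t - x 0 ∈ S := by
  have hScl : IsClosed (S : Set (Fin d → ℝ)) := S.closed_of_finiteDimensional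
  have h1 : ∀ s ∈ Icc 0 t, S.mkQL (x s) = S.mkQL (x 0) := by
    refine constant_of_has_deriv_right_zero (f := fun s => S.mkQL (x s)) ?_ ?_
    · exact S.mkQL.continuous.comp_continuousOn
        ((IsForwardSolution.continuousOn hx).mono fun s hs => hs.1)
    · intro s hs
      have h2 := (S.mkQL.hasFDerivAt (x := x s)).comp_hasDerivWithinAt s
        (IsForwardSolution.hasDeriv_Ici hx hs.1)
      have h3 : S.mkQL (F (x s)) = 0 := by
        show S.mkQ (F (x s)) = 0
        rw [Submodule.mkQ_apply, Submodule.Quotient.mk_eq_zero]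
        exact hFS _
      rw [h3] at h2
      exact h2
  have h4 := h1 t ⟨ht, le_rfl⟩
  rw [← sub_eq_zero, ← map_sub] at h4
  have h5 : S.mkQ (x t - x 0) = 0 := h4
  rwa [Submodule.mkQ_apply, Submodule.Quotient.mk_eq_zero] at h5

/-- Moving polytope lemma. -/
theorem move {d : ℕ} {F : (Fin d → ℝ) → (Fin d → ℝ)} {S : Submodule ℝ (Fin d → ℝ)}
    (hFS : ∀ x, F x ∈ S) {c : Fin d → ℝ} {ι : Type} [Fintype ι] {a : ι → Fin d → ℝ}
    {b : ι → ℝ → ℝ} (hb : ∀ i, ContDiff ℝ 1 (b i)) {L₁ ε T : ℝ}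
    (hc : ∀ t ∈ Icc 0 T, Sat a b (L₁ - ε * t) c)
    (hact : ∀ t ∈ Ico 0 T, ∀ x, Sat a b (L₁ - ε * t) x → x - c ∈ S → ∀ i,
      ∑ j, a i j * x j = b i (L₁ - ε * t) →
      (∀ s ∈ S, ∑ j, a i j * s j = 0) ∨ ∑ j, a i j * F x j + ε * deriv (b i) (L₁ - ε * t) < 0)
    {x : ℝ → (Fin d → ℝ)} (hx : IsForwardSolution F x) (hx0 : x 0 - c ∈ S)
    (hsat : Sat a b L₁ (x 0)) :
    ∀ t ∈ Icc 0 T, Sat a b (L₁ - ε * t) (x t) := by
  have hxc : ∀ t, 0 ≤ t → x t - c ∈ S := by
    intro t ht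
    have h1 := sub_mem_of_solution hFS hx ht
    have h2 := S.add_mem h1 hx0
    simpa using h2
  -- the functions
  let f : ι → ℝ → ℝ := fun i t => (∑ j, a i j * x t j) - b i (L₁ - ε * t)
  have hLd : ∀ t : ℝ, HasDerivAt (fun t : ℝ => L₁ - ε * t) (-ε) t := by
    intro t
    have := ((hasDerivAt_id t).const_mul ε).const_sub L₁
    simpa using this
  have hfd : ∀ i t, 0 ≤ t → HasDerivWithinAt (f i)
      ((∑ j, a i j * F (x t) j) - deriv (b i) (L₁ - ε * t) * (-ε)) (Ici t) t := by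
    intro i t ht
    have h1 := hasDeriv_dot (a i) (IsForwardSolution.hasDeriv_Ici hx ht)
    have h2 : HasDerivAt (b i) (deriv (b i) (L₁ - ε * t)) (L₁ - ε * t) :=
      ((hb i).differentiable one_ne_zero).differentiableAt.hasDerivAt
    have h3 := (h2.comp t (hLd t)).hasDerivWithinAt (s := Ici t)
    exact h1.sub h3
  have hfc : ∀ i, ContinuousOn (f i) (Icc 0 T) := by
    intro i
    have hxcont : ContinuousOn x (Icc 0 T) :=
      (IsForwardSolution.continuousOn hx).mono fun s hs => hs.1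
    have h1 : ContinuousOn (fun t => ∑ j, a i j * x t j) (Icc 0 T) := by
      refine continuousOn_finsetSum _ fun j _ => ?_
      exact continuousOn_const.mul ((continuous_apply j).comp_continuousOn hxcont)
    have h2 : Continuous (fun t => b i (L₁ - ε * t)) := (hb i).continuous.comp (by fun_prop)
    exact h1.sub h2.continuousOn
  have key := exit f hfc (fun i => by
    have := hsat i
    simp only [f, mul_zero, sub_zero]
    linarith) (by
    intro t ht hle i hi
    have hSat : Sat a b (L₁ - ε * t) (x t) := fun i => by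
      have := hle i
      simp only [f] at this
      linarith
    have heq : ∑ j, a i j * x t j = b i (L₁ - ε * t) := by
      simp only [f] at hi
      linarith
    rcases hact t ht (x t) hSat (hxc t ht.1) i heq with hperp | hneg
    · -- constant constraint
      have h1 : ∀ s, 0 ≤ s → ∑ j, a i j * x s j = ∑ j, a i j * c j := by
        intro s hs
        have h2 := hperp _ (hxc s hs)
        simp only [Pi.sub_apply, mul_sub, Finset.sum_sub_distrib] at h2
        linarith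
      filter_upwards [Ioc_mem_nhdsGT ht.2] with s hs
      have hs0 : 0 ≤ s := ht.1.trans hs.1.le
      have h3 := hc s ⟨hs0, hs.2⟩ i
      simp only [f]
      rw [h1 s hs0]
      linarith
    · have h1 := eventually_lt_of_deriv_neg (hfd i t ht.1) (by linarith)
      filter_upwards [h1] with s hs
      rw [hi] at hs
      exact hs.le)
  intro t ht i
  have := key t ht i
  simp only [f] at this
  linarith

/-- Existence of global solutions for bounded Lipschitz fields. -/
theorem exists_global {d : ℕ} (G : (Fin d → ℝ) → (Fin d → ℝ)) {K : NNReal}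
    (hG : LipschitzWith K G) {M : NNReal} (hM : ∀ x, ‖G x‖ ≤ M) (x₀ : Fin d → ℝ) :
    ∃ x : ℝ → (Fin d → ℝ), IsForwardSolution G x ∧ x 0 = x₀ := by
  have hloc : ∀ N : ℕ, ∃ α : ℝ → (Fin d → ℝ), α 0 = x₀ ∧
      ∀ t ∈ Icc (0 : ℝ) (N + 1), HasDerivWithinAt α (G (α t)) (Icc (0 : ℝ) (N + 1)) t := by
    intro N
    have h0 : (0 : ℝ) ∈ Icc (0 : ℝ) (N + 1) := ⟨le_rfl, by positivity⟩
    have hPL : IsPicardLindelof (fun _ => G) (tmin := 0) (tmax := (N + 1 : ℝ)) ⟨0, h0⟩ x₀
        (M * (N + 1)) 0 M K := by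
      refine IsPicardLindelof.of_time_independent (fun x _ => hM x) hG.lipschitzOnWith ?_
      simp only [sub_zero, sub_self]
      rw [max_eq_left (by positivity)]
      simp
    obtain ⟨α, hα0, hα⟩ := hPL.exists_eq_forall_mem_Icc_hasDerivWithinAt₀
    exact ⟨α, hα0, hα⟩
  choose α hα0 hα using hloc
  -- agreement
  have hagree : ∀ N M : ℕ, N ≤ M → EqOn (α N) (α M) (Icc (0 : ℝ) (N + 1)) := by
    intro N M hNM
    have hNM' : (N : ℝ) + 1 ≤ M + 1 := by
      have : (N : ℝ) ≤ M := by exact_mod_cast hNM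
      linarith
    refine ODE_solution_unique (v := fun _ => G) (fun _ => hG) ?_ ?_ ?_ ?_ ?_
    · exact fun t ht => (hα N t ht).continuousWithinAt
    · intro t ht
      refine (hα N t (Ico_subset_Icc_self ht)).mono_of_mem_nhdsWithin ?_
      exact mem_of_superset (Icc_mem_nhdsGE ht.2) fun s hs => ⟨ht.1.trans hs.1, hs.2⟩
    · exact fun t ht => ((hα M t ⟨ht.1, ht.2.trans hNM'⟩).continuousWithinAt).mono
        (Icc_subset_Icc_right hNM')
    · intro t ht
      have ht' : t ∈ Ico (0 : ℝ) (M + 1) := ⟨ht.1, ht.2.trans_le hNM'⟩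
      refine (hα M t (Ico_subset_Icc_self ht')).mono_of_mem_nhdsWithin ?_
      exact mem_of_superset (Icc_mem_nhdsGE ht'.2) fun s hs => ⟨ht'.1.trans hs.1, hs.2⟩
    · rw [hα0, hα0]
  let x : ℝ → (Fin d → ℝ) := fun t => α ⌈t⌉₊ t
  have hx : ∀ N : ℕ, EqOn x (α N) (Icc (0 : ℝ) N) := by
    intro N t ht
    have h1 : ⌈t⌉₊ ≤ N := Nat.ceil_le.2 ht.2
    refine hagree _ _ h1 ⟨ht.1, ?_⟩
    have := Nat.le_ceil t
    linarith
  refine ⟨x, fun t ht => ?_, ?_⟩
  · obtain ⟨N, hN⟩ := exists_nat_gt t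
    have h1 : HasDerivWithinAt (α N) (G (α N t)) (Ici 0) t := by
      have hN1 : t < (N : ℝ) + 1 := by linarith
      refine (hα N t ⟨ht, hN1.le⟩).mono_of_mem_nhdsWithin ?_
      rw [← Ici_inter_Iic]
      exact inter_mem self_mem_nhdsWithin (mem_nhdsWithin_of_mem_nhds (Iic_mem_nhds hN1))
    have hxt : x t = α N t := hx N ⟨ht, hN.le⟩
    rw [hxt]
    refine h1.congr_of_eventuallyEq ?_ hxt
    have h2 : Icc (0 : ℝ) N ∈ 𝓝[Ici 0] t := by
      rw [← Ici_inter_Iic]
      exact inter_mem self_mem_nhdsWithin (mem_nhdsWithin_of_mem_nhds (Iic_mem_nhds hN))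
    filter_upwards [h2] with s hs
    exact hx N hs
  · show α ⌈(0 : ℝ)⌉₊ 0 = x₀
    exact hα0 _

/-- Uniform speed of the moving polytope. -/
lemma exists_eps {d : ℕ} {F : (Fin d → ℝ) → (Fin d → ℝ)} (hF : Continuous F)
    {S : Submodule ℝ (Fin d → ℝ)} {ι : Type} [Fintype ι] {a : ι → Fin d → ℝ}
    {b : ι → ℝ → ℝ} (hb : ∀ i, ContDiff ℝ 1 (b i)) {D L₀ L₁ : ℝ}
    (hbox : ∀ L, L₀ ≤ L → ∀ x, Sat a b L x →
      ∀ j, Real.exp (-(D * L)) ≤ x j ∧ x j ≤ Real.exp (D * L))
    (hact : ∀ L, L₀ ≤ L → ∀ x, Sat a b L x → ∀ i, ∑ j, a i j * x j = b i L →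
      (∀ s ∈ S, ∑ j, a i j * s j = 0) ∨ ∑ j, a i j * F x j < 0) :
    ∃ ε : ℝ, 0 < ε ∧ ∀ L ∈ Icc L₀ L₁, ∀ x, Sat a b L x → ∀ i, ∑ j, a i j * x j = b i L →
      (∀ s ∈ S, ∑ j, a i j * s j = 0) ∨ ∑ j, a i j * F x j + ε * deriv (b i) L < 0 := by
  have hone : ∀ i, ∀ᶠ ε in 𝓝[>] (0 : ℝ), ∀ L ∈ Icc L₀ L₁, ∀ x, Sat a b L x →
      ∑ j, a i j * x j = b i L →
      (∀ s ∈ S, ∑ j, a i j * s j = 0) ∨ ∑ j, a i j * F x j + ε * deriv (b i) L < 0 := by
    intro i
    by_cases hperp : ∀ s ∈ S, ∑ j, a i j * s j = 0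
    · exact Eventually.of_forall fun ε L _ x _ _ => Or.inl hperp
    -- the compact set of active points
    let C : Set (ℝ × (Fin d → ℝ)) := {p | p.1 ∈ Icc L₀ L₁ ∧ Sat a b p.1 p.2 ∧
      ∑ j, a i j * p.2 j = b i p.1}
    have hCcl : IsClosed C := by
      have h1 : IsClosed {p : ℝ × (Fin d → ℝ) | p.1 ∈ Icc L₀ L₁} :=
        isClosed_Icc.preimage continuous_fst
      have hdot : ∀ i', Continuous fun p : ℝ × (Fin d → ℝ) => ∑ j, a i' j * p.2 j := by
        intro i'
        fun_prop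
      have hbc : ∀ i', Continuous fun p : ℝ × (Fin d → ℝ) => b i' p.1 := fun i' =>
        (hb i').continuous.comp continuous_fst
      have h2 : IsClosed {p : ℝ × (Fin d → ℝ) | Sat a b p.1 p.2} := by
        have : {p : ℝ × (Fin d → ℝ) | Sat a b p.1 p.2} =
            ⋂ i', {p : ℝ × (Fin d → ℝ) | ∑ j, a i' j * p.2 j ≤ b i' p.1} := by
          ext p; simp [Sat]
        rw [this]
        exact isClosed_iInter fun i' => isClosed_le (hdot i') (hbc i')
      have h3 : IsClosed {p : ℝ × (Fin d → ℝ) | ∑ j, a i j * p.2 j = b i p.1} :=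
        isClosed_eq (hdot i) (hbc i)
      exact h1.inter (h2.inter h3)
    set R : ℝ := Real.exp (|D| * (|L₀| + |L₁|)) with hR
    have hCc : IsCompact C := by
      refine IsCompact.of_isClosed_subset
        ((isCompact_Icc (a := L₀) (b := L₁)).prod (isCompact_Icc (a := (0 : Fin d → ℝ)) (b := fun _ => R)))
        hCcl ?_
      rintro ⟨L, x⟩ ⟨hL, hsat, -⟩
      refine ⟨hL, ?_, ?_⟩
      · intro j
        exact (Real.exp_pos _).le.trans (hbox L hL.1 x hsat j).1
      · intro j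
        refine (hbox L hL.1 x hsat j).2.trans ?_
        refine Real.exp_le_exp.2 ?_
        have hLabs : |L| ≤ |L₀| + |L₁| := by
          rw [abs_le]
          have h1 := neg_abs_le L₀
          have h2 := le_abs_self L₁
          have h3 := abs_nonneg L₀
          have h4 := abs_nonneg L₁
          constructor <;> linarith [hL.1, hL.2]
        calc D * L ≤ |D * L| := le_abs_self _
          _ = |D| * |L| := abs_mul _ _
          _ ≤ |D| * (|L₀| + |L₁|) := by gcongr
    have hneg : ∀ p ∈ C, ∑ j, a i j * F p.2 j < 0 := by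
      rintro ⟨L, x⟩ ⟨hL, hsat, heq⟩
      exact (hact L hL.1 x hsat i heq).resolve_left hperp
    have hm : ∃ m : ℝ, 0 < m ∧ ∀ p ∈ C, ∑ j, a i j * F p.2 j ≤ -m := by
      by_cases hne : C.Nonempty
      · obtain ⟨p₀, hp₀, hmax⟩ := hCc.exists_isMaxOn hne
          (f := fun p : ℝ × (Fin d → ℝ) => ∑ j, a i j * F p.2 j) (by fun_prop)
        refine ⟨-(∑ j, a i j * F p₀.2 j), by linarith [hneg p₀ hp₀], fun p hp => ?_⟩
        have : ∑ j, a i j * F p.2 j ≤ ∑ j, a i j * F p₀.2 j := hmax hp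
        linarith
      · exact ⟨1, one_pos, fun p hp => absurd ⟨p, hp⟩ hne⟩
    obtain ⟨m, hm0, hm⟩ := hm
    have hderc : Continuous (deriv (b i)) := (hb i).continuous_deriv le_rfl
    obtain ⟨B, hB⟩ := (isCompact_Icc (a := L₀) (b := L₁)).exists_bound_of_continuousOn
      hderc.continuousOn
    have hB' : ∀ L ∈ Icc L₀ L₁, deriv (b i) L ≤ |B| := fun L hL =>
      ((le_abs_self _).trans (hB L hL)).trans (le_abs_self B)
    have hpos : 0 < m / (|B| + 1) := by positivity
    filter_upwards [Ioc_mem_nhdsGT hpos] with ε hε L hL x hsat heq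
    refine Or.inr ?_
    have h1 := hm (L, x) ⟨hL, hsat, heq⟩
    have h2 := hB' L hL
    have h3 : ε * deriv (b i) L ≤ ε * |B| := mul_le_mul_of_nonneg_left h2 hε.1.le
    have h4 : ε * (|B| + 1) ≤ m := by
      have := hε.2
      rwa [le_div_iff₀ (by positivity)] at this
    have h5 : ∑ j, a i j * F x j ≤ -m := h1
    nlinarith [hε.1]
  obtain ⟨ε, hε, hε0⟩ := ((eventually_all.2 hone).and self_mem_nhdsWithin).exists
  exact ⟨ε, hε0, fun L hL x hsat i heq => hε i L hL x hsat heq⟩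

/-- Static invariance. -/
theorem static {d : ℕ} {F : (Fin d → ℝ) → (Fin d → ℝ)} {S : Submodule ℝ (Fin d → ℝ)}
    (hFS : ∀ x, F x ∈ S) {c : Fin d → ℝ} {ι : Type} [Fintype ι] {a : ι → Fin d → ℝ}
    {b : ι → ℝ → ℝ} (hb : ∀ i, ContDiff ℝ 1 (b i)) {L : ℝ} (hc : Sat a b L c)
    (hact : ∀ x, Sat a b L x → ∀ i, ∑ j, a i j * x j = b i L →
      (∀ s ∈ S, ∑ j, a i j * s j = 0) ∨ ∑ j, a i j * F x j < 0)
    {x : ℝ → (Fin d → ℝ)} (hx : IsForwardSolution F x) (hx0 : x 0 - c ∈ S)
    (hsat : Sat a b L (x 0)) {t : ℝ} (ht : 0 ≤ t) : Sat a b L (x t) := by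
  have := move hFS hb (L₁ := L) (ε := 0) (T := t) (c := c) (by intro s _; simpa using hc)
    (by
      intro s _ y hy _ i hi
      simp only [zero_mul, sub_zero, add_zero] at hy hi ⊢
      exact hact y hy i hi) hx hx0 hsat t ⟨ht, le_rfl⟩
  simpa using this

theorem part3 : Part3 := by
  intro d F hF S hFS c hcpos ι _ a b D hb hexh hbox hact
  -- choose `L₀`
  obtain ⟨L₀, hL₀⟩ := eventually_atTop.1 ((hexh c hcpos).and (hbox.and hact))
  have hc : ∀ L, L₀ ≤ L → Sat a b L c := fun L hL => (hL₀ L hL).1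
  have hbox' : ∀ L, L₀ ≤ L → ∀ x, Sat a b L x →
      ∀ j, Real.exp (-(D * L)) ≤ x j ∧ x j ≤ Real.exp (D * L) := fun L hL => (hL₀ L hL).2.1
  have hact' : ∀ L, L₀ ≤ L → ∀ x, Sat a b L x → ∀ i, ∑ j, a i j * x j = b i L →
      (∀ s ∈ S, ∑ j, a i j * s j = 0) ∨ ∑ j, a i j * F x j < 0 := fun L hL => (hL₀ L hL).2.2
  have hdot : ∀ i, Continuous fun x : (Fin d → ℝ) => ∑ j, a i j * x j := fun i => by fun_prop
  -- choose `L₁` for a starting point
  have hL₁ : ∀ x₀ : Fin d → ℝ, (∀ i, 0 < x₀ i) → ∃ L₁, L₀ ≤ L₁ ∧ Sat a b L₁ x₀ := by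
    intro x₀ hx₀
    obtain ⟨L₁, h1, h2⟩ := ((hexh x₀ hx₀).and (eventually_ge_atTop L₀)).exists
    exact ⟨L₁, h2, h1⟩
  have hSatcl : ∀ L, IsClosed {x : Fin d → ℝ | Sat a b L x} := by
    intro L
    have : {x : Fin d → ℝ | Sat a b L x} = ⋂ i, {x : Fin d → ℝ | ∑ j, a i j * x j ≤ b i L} := by
      ext x; simp [Sat]
    rw [this]
    exact isClosed_iInter fun i => isClosed_le (hdot i) continuous_const
  set K : Set (Fin d → ℝ) := {x | Sat a b L₀ x ∧ x - c ∈ S} with hK
  have hinvK : ∀ x : ℝ → (Fin d → ℝ), IsForwardSolution F x → x 0 ∈ K →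
      ∀ t : ℝ, 0 ≤ t → x t ∈ K := by
    intro x hx hx0 t ht
    refine ⟨static hFS hb (hc L₀ le_rfl) (hact' L₀ le_rfl) hx hx0.2 hx0.1 ht, ?_⟩
    have h1 := S.add_mem (sub_mem_of_solution hFS hx ht) hx0.2
    simpa using h1
  refine ⟨K, ?_, ?_, ?_, ?_, hinvK, ?_⟩
  · rintro x ⟨hx, hxS⟩
    exact ⟨fun i => (Real.exp_pos _).trans_le (hbox' L₀ le_rfl x hx i).1, hxS⟩
  · exact ⟨c, hc L₀ le_rfl, by simp⟩
  · refine IsCompact.of_isClosed_subset
      (isCompact_Icc (a := (0 : Fin d → ℝ)) (b := fun _ => Real.exp (D * L₀))) ?_ ?_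
    · have hScl : IsClosed (S : Set (Fin d → ℝ)) := S.closed_of_finiteDimensional
      exact (hSatcl L₀).inter (hScl.preimage (continuous_id.sub continuous_const))
    · rintro x ⟨hx, -⟩
      exact ⟨fun j => (Real.exp_pos _).le.trans (hbox' L₀ le_rfl x hx j).1,
        fun j => (hbox' L₀ le_rfl x hx j).2⟩
  · rintro x ⟨hx, hxS⟩ y ⟨hy, hyS⟩ p q hp hq hpq
    refine ⟨fun i => ?_, ?_⟩
    · have h1 : ∑ j, a i j * (p • x + q • y) j =
          p * ∑ j, a i j * x j + q * ∑ j, a i j * y j := by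
        rw [Finset.mul_sum, Finset.mul_sum, ← Finset.sum_add_distrib]
        refine Finset.sum_congr rfl fun j _ => ?_
        simp only [Pi.add_apply, Pi.smul_apply, smul_eq_mul]
        ring
      rw [h1]
      calc p * ∑ j, a i j * x j + q * ∑ j, a i j * y j ≤ p * b i L₀ + q * b i L₀ := by
            gcongr
            · exact hx i
            · exact hy i
        _ = b i L₀ := by rw [← add_mul, hpq, one_mul]
    · have h1 : p • x + q • y - c = p • (x - c) + q • (y - c) := by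
        have : c = (p + q) • c := by rw [hpq, one_smul]
        rw [smul_sub, smul_sub]
        nth_rewrite 1 [this]
        rw [add_smul]; abel
      rw [h1]
      exact S.add_mem (S.smul_mem _ hxS) (S.smul_mem _ hyS)
  · rintro x₀ ⟨hx₀, hx₀S⟩
    obtain ⟨L₁, hL₁, hsat⟩ := hL₁ x₀ hx₀
    set lo := Real.exp (-(D * L₁)) with hlo
    set hi := Real.exp (D * L₁) with hhi
    let box : Set (Fin d → ℝ) := Icc (fun _ => lo) (fun _ => hi)
    have hboxc : IsCompact box := isCompact_Icc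
    have hlohi : ∀ _ : Fin d, lo ≤ hi := fun j =>
      (hbox' L₁ hL₁ x₀ hsat j).1.trans (hbox' L₁ hL₁ x₀ hsat j).2
    obtain ⟨Kl, hKl⟩ := (hF.locallyLipschitz.locallyLipschitzOn
      (s := box)).exists_lipschitzOnWith_of_compact hboxc
    have hSatbox : ∀ x, Sat a b L₁ x → x ∈ box := fun x hx =>
      ⟨fun j => (hbox' L₁ hL₁ x hx j).1, fun j => (hbox' L₁ hL₁ x hx j).2⟩
    -- all solutions stay in the polytope at `L₁`
    have hstay : ∀ x : ℝ → (Fin d → ℝ), IsForwardSolution F x → x 0 = x₀ →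
        ∀ t, 0 ≤ t → Sat a b L₁ (x t) := by
      intro x hx hx0 t ht
      exact static hFS hb (hc L₁ hL₁) (hact' L₁ hL₁) hx (by rw [hx0]; exact hx₀S)
        (by rw [hx0]; exact hsat) ht
    refine ⟨?_, ?_, ?_⟩
    · -- existence
      let cl : (Fin d → ℝ) → (Fin d → ℝ) := fun x j => max lo (min hi (x j))
      have hclbox : ∀ x, cl x ∈ box := fun x =>
        ⟨fun j => le_max_left _ _, fun j => max_le (hlohi j) (min_le_left _ _)⟩
      have hclid : ∀ x ∈ box, cl x = x := by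
        intro x hx
        funext j
        have h1 : lo ≤ x j := hx.1 j
        have h2 : x j ≤ hi := hx.2 j
        simp only [cl]
        rw [min_eq_right h2, max_eq_right h1]
      have hclL : LipschitzWith 1 cl := by
        refine LipschitzWith.of_dist_le_mul fun x y => ?_
        rw [NNReal.coe_one, one_mul]
        refine (dist_pi_le_iff dist_nonneg).2 fun j => ?_
        refine le_trans ?_ (dist_le_pi_dist x y j)
        rw [Real.dist_eq, Real.dist_eq]
        calc |max lo (min hi (x j)) - max lo (min hi (y j))|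
            ≤ |min hi (x j) - min hi (y j)| := by
              have := abs_max_sub_max_le_max lo (min hi (x j)) lo (min hi (y j))
              simpa using this
          _ ≤ |x j - y j| := by
              have := abs_min_sub_min_le_max hi (x j) hi (y j)
              simpa using this
      let G : (Fin d → ℝ) → (Fin d → ℝ) := fun x => F (cl x)
      have hGL : LipschitzWith (Kl * 1) G := by
        have h1 := hKl.comp (hclL.lipschitzOnWith (s := univ)) (fun x _ => hclbox x)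
        exact lipschitzOnWith_univ.1 h1
      obtain ⟨M, hM⟩ := hboxc.exists_bound_of_continuousOn (f := F) hF.continuous.continuousOn
      obtain ⟨x, hx, hx0⟩ := exists_global G hGL (M := ⟨|M|, abs_nonneg M⟩)
        (fun x => (hM (cl x) (hclbox x)).trans (le_abs_self M)) x₀
      have hstayG : ∀ t, 0 ≤ t → Sat a b L₁ (x t) := by
        intro t ht
        refine static (F := G) (fun x => hFS _) hb (hc L₁ hL₁) ?_ hx
          (by rw [hx0]; exact hx₀S) (by rw [hx0]; exact hsat) ht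
        intro y hy i hi
        have h1 : G y = F y := by
          simp only [G]; rw [hclid y (hSatbox y hy)]
        rw [h1]
        exact hact' L₁ hL₁ y hy i hi
      refine ⟨x, fun t ht => ?_, hx0⟩
      have h1 := hx t ht
      have h2 : G (x t) = F (x t) := by
        simp only [G]; rw [hclid _ (hSatbox _ (hstayG t ht))]
      rwa [h2] at h1
    · -- uniqueness
      intro x x' hx hx' hx0 hx0' t ht
      have h1 := ODE_solution_unique_of_mem_Icc_right (v := fun _ => F) (s := fun _ => box)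
        (K := Kl) (a := 0) (b := t) (f := x) (g := x') (fun s _ => hKl)
        ((IsForwardSolution.continuousOn hx).mono fun s hs => hs.1)
        (fun s hs => IsForwardSolution.hasDeriv_Ici hx hs.1)
        (fun s hs => hSatbox _ (hstay x hx hx0 s hs.1))
        ((IsForwardSolution.continuousOn hx').mono fun s hs => hs.1)
        (fun s hs => IsForwardSolution.hasDeriv_Ici hx' hs.1)
        (fun s hs => hSatbox _ (hstay x' hx' hx0' s hs.1))
        (by rw [hx0, hx0'])
      exact h1 ⟨ht, le_rfl⟩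
    · intro x hx hx0
      refine ⟨fun t ht i => (Real.exp_pos _).trans_le
        (hbox' L₁ hL₁ _ (hstay x hx hx0 t ht) i).1, ?_⟩
      obtain ⟨ε, hε, hεact⟩ := exists_eps hF.continuous (S := S) hb (L₁ := L₁) hbox' hact'
      set T : ℝ := (L₁ - L₀) / ε with hT
      have hT0 : 0 ≤ T := div_nonneg (by linarith) hε.le
      have hεT : ε * T = L₁ - L₀ := by rw [hT]; field_simp
      have hrange : ∀ t ∈ Icc 0 T, L₁ - ε * t ∈ Icc L₀ L₁ := by
        intro t ht
        have h1 : ε * t ≤ ε * T := mul_le_mul_of_nonneg_left ht.2 hε.le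
        have h2 : 0 ≤ ε * t := mul_nonneg hε.le ht.1
        constructor <;> linarith
      have hmove := move hFS hb (L₁ := L₁) (ε := ε) (T := T) (c := c)
        (fun t ht => hc _ (hrange t ht).1)
        (fun t ht y hy _ i hi => hεact _ (hrange t (Ico_subset_Icc_self ht)) y hy i hi)
        hx (by rw [hx0]; exact hx₀S) (by rw [hx0]; exact hsat) T ⟨hT0, le_rfl⟩
      rw [hεT, sub_sub_cancel] at hmove
      refine ⟨T, hT0, fun t ht => ?_⟩
      have hxT : x T - c ∈ S := by
        have h1 := S.add_mem (sub_mem_of_solution hFS hx hT0) (by rw [hx0]; exact hx₀S : x 0 - c ∈ S)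
        simpa using h1
      have hsh := IsForwardSolution.shift hx hT0
      have h2 := hinvK (fun s => x (s + T)) hsh (by
        simp only [zero_add]
        exact ⟨hmove, hxT⟩) (t - T) (by linarith)
      simpa using h2

end Crest.Agent.R092.Dyn
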