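import Crest.Agent.R092.Interface

/-!
Result 92 (S0122), Part 2: the field estimate.
-/

set_option autoImplicit false

namespace Crest.Agent.R092
open Filter Crest.AnalysisR.MassAction

/-- Pairing of a real vector with a complex. -/
noncomputable def dotC {d : ℕ} (w : Fin d → ℝ) (y : Fin d → ℕ) : ℝ := ∑ j, w j * (y j : ℝ)

/-- The monomial `x ^ y`. -/
noncomputable def mono {d : ℕ} (x : Fin d → ℝ) (y : Fin d → ℕ) : ℝ := ∏ i, x i ^ y i

lemma mono_pos {d : ℕ} {x : Fin d → ℝ} (hx : ∀ j, 0 < x j) (y : Fin d → ℕ) : 0 < mono x y :=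
  Finset.prod_pos fun i _ => pow_pos (hx i) _

lemma log_mono {d : ℕ} {x : Fin d → ℝ} (hx : ∀ j, 0 < x j) (y : Fin d → ℕ) :
    Real.log (mono x y) = ∑ j, (y j : ℝ) * Real.log (x j) := by
  unfold mono
  rw [Real.log_prod (fun i _ => (pow_pos (hx i) _).ne')]
  exact Finset.sum_congr rfl fun i _ => by rw [Real.log_pow]

/-- On a return path from above level `c` to a complex at level at most `c`, some reaction goes
from above `c` to at most `c`. -/
lemma exists_down {d : ℕ} (R : Network d) (w : Fin d → ℝ) (c : ℝ) {u y : Fin d → ℕ}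
    (h : Relation.ReflTransGen (fun a b => (a, b) ∈ R) u y) (hy : dotC w y ≤ c)
    (hu : c < dotC w u) :
    ∃ s ∈ R, c < dotC w s.1 ∧ dotC w s.2 ≤ c := by
  induction h using Relation.ReflTransGen.head_induction_on with
  | refl => exact absurd hu (not_lt.mpr hy)
  | @head a b hab _ ih =>
    by_cases hb : c < dotC w b
    · exact ih hb
    · exact ⟨(a, b), hab, hu, not_lt.mp hb⟩

lemma dot_reactionVector {d : ℕ} (w : Fin d → ℝ) (r : (Fin d → ℕ) × (Fin d → ℕ)) :
    ∑ j, w j * reactionVector r j = dotC w r.2 - dotC w r.1 := by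
  unfold dotC reactionVector
  rw [← Finset.sum_sub_distrib]
  exact Finset.sum_congr rfl fun j _ => by ring

lemma dot_field {d : ℕ} (R : Network d) (k : (Fin d → ℕ) × (Fin d → ℕ) → ℝ)
    (w x : Fin d → ℝ) :
    ∑ j, w j * field R k x j = ∑ r ∈ R, k r * mono x r.1 * (dotC w r.2 - dotC w r.1) := by
  have h1 : ∀ j, w j * field R k x j = ∑ r ∈ R, k r * mono x r.1 * (w j * reactionVector r j) := by
    intro j
    unfold field
    rw [Finset.sum_apply, Finset.mul_sum]
    refine Finset.sum_congr rfl fun r _ => ?_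
    simp only [Pi.smul_apply, smul_eq_mul, mono]
    ring
  simp_rw [h1]
  rw [Finset.sum_comm]
  refine Finset.sum_congr rfl fun r _ => ?_
  rw [← dot_reactionVector, Finset.mul_sum]

lemma mono_le_of_compat {d : ℕ} {Q : ℕ} {L : ℝ} {w x : Fin d → ℝ} (hx : ∀ j, 0 < x j)
    (hc : Compat Q L w x) {y p : Fin d → ℕ} (hy : ∀ j, y j ≤ Q) (hp : ∀ j, p j ≤ Q)
    (hlt : dotC w y < dotC w p) : mono x y * Real.exp L ≤ mono x p := by
  have h := hc (fun j => (p j : ℤ) - (y j : ℤ)) (fun j => by
    have h1 := hy j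
    have h2 := hp j
    rw [abs_le]
    constructor <;> omega) (by
    have : ∑ j, w j * (((p j : ℤ) - (y j : ℤ) : ℤ) : ℝ) = dotC w p - dotC w y := by
      unfold dotC
      rw [← Finset.sum_sub_distrib]
      exact Finset.sum_congr rfl fun j _ => by push_cast; ring
    rw [this]
    linarith)
  have h2 : ∑ j, ((((p j : ℤ) - (y j : ℤ) : ℤ)) : ℝ) * Real.log (x j)
      = Real.log (mono x p) - Real.log (mono x y) := by
    rw [log_mono hx, log_mono hx, ← Finset.sum_sub_distrib]
    exact Finset.sum_congr rfl fun j _ => by push_cast; ring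
  rw [h2] at h
  have hyp := mono_pos hx y
  have hpp := mono_pos hx p
  have h3 : Real.log (mono x y) + L ≤ Real.log (mono x p) := by linarith
  calc mono x y * Real.exp L = Real.exp (Real.log (mono x y) + L) := by
        rw [Real.exp_add, Real.exp_log hyp]
    _ ≤ Real.exp (Real.log (mono x p)) := Real.exp_le_exp.mpr h3
    _ = mono x p := Real.exp_log hpp

theorem part2 : Part2 := by
  classical
  intro d R hWR k hk Q hQ w
  set g : (Fin d → ℕ) × (Fin d → ℕ) → ℝ := fun r => dotC w r.2 - dotC w r.1 with hg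
  by_cases hall : ∀ r ∈ R, g r = 0
  · refine Filter.Eventually.of_forall fun L x _ _ => Or.inl ?_
    intro r hr
    rw [dot_reactionVector]
    exact hall r hr
  push Not at hall
  obtain ⟨r0, hr0, hr0g⟩ := hall
  -- ratio constant
  set M : ℝ := ∑ r ∈ R, ∑ s ∈ R, |k r * g r| / |k s * g s| with hM
  have hM0 : 0 ≤ M := Finset.sum_nonneg fun r _ => Finset.sum_nonneg fun s _ =>
    div_nonneg (abs_nonneg _) (abs_nonneg _)
  have hev : ∀ᶠ L : ℝ in atTop, M < Real.exp L :=
    (Real.tendsto_exp_atTop.eventually_gt_atTop M)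
  filter_upwards [hev] with L hL x hx hc
  refine Or.inr ?_
  rw [dot_field]
  -- for every up reaction a dominating down reaction
  have hdom : ∀ r ∈ R, 0 < g r → ∃ s ∈ R, g s < 0 ∧ mono x r.1 * Real.exp L ≤ mono x s.1 := by
    intro r hr hgr
    have hgr' : dotC w r.1 < dotC w r.2 := by simpa [hg] using hgr
    obtain ⟨s, hs, hs1, hs2⟩ := exists_down R w (dotC w r.1) (hWR r hr) le_rfl hgr'
    refine ⟨s, hs, ?_, ?_⟩
    · simp only [hg]; linarith
    · exact mono_le_of_compat hx hc (fun j => (hQ r hr j).1) (fun j => (hQ s hs j).1) hs1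
  -- total down part
  set D : ℝ := ∑ s ∈ R.filter (fun s => g s < 0), k s * mono x s.1 * |g s| with hD
  have hterm : ∀ s ∈ R, 0 < k s * mono x s.1 := fun s hs => mul_pos (hk s hs) (mono_pos hx _)
  have hDle : ∀ s ∈ R, g s < 0 → k s * mono x s.1 * |g s| ≤ D := by
    intro s hs hgs
    rw [hD]
    refine Finset.single_le_sum (f := fun s => k s * mono x s.1 * |g s|) (fun t ht => ?_)
      (Finset.mem_filter.mpr ⟨hs, hgs⟩)
    exact mul_nonneg (hterm t (Finset.mem_filter.mp ht).1).le (abs_nonneg _)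
  have hDpos : 0 < D := by
    have : ∃ s ∈ R, g s < 0 := by
      rcases lt_or_gt_of_ne hr0g with h | h
      · exact ⟨r0, hr0, h⟩
      · obtain ⟨s, hs, hgs, _⟩ := hdom r0 hr0 h
        exact ⟨s, hs, hgs⟩
    obtain ⟨s, hs, hgs⟩ := this
    exact lt_of_lt_of_le (mul_pos (hterm s hs) (abs_pos.mpr hgs.ne)) (hDle s hs hgs)
  have hup : ∀ r ∈ R, 0 < g r →
      k r * mono x r.1 * g r ≤ (∑ s ∈ R, |k r * g r| / |k s * g s|) * (Real.exp (-L) * D) := by
    intro r hr hgr
    obtain ⟨s, hs, hgs, hms⟩ := hdom r hr hgr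
    have hks := hk s hs
    have hkr := hk r hr
    have hpos : 0 < |k s * g s| := abs_pos.mpr (mul_ne_zero hks.ne' hgs.ne)
    have h1 : mono x r.1 ≤ Real.exp (-L) * mono x s.1 := by
      rw [Real.exp_neg, ← div_eq_inv_mul, le_div_iff₀ (Real.exp_pos L)]
      exact hms
    have h2 : k r * mono x r.1 * g r ≤ |k r * g r| * (Real.exp (-L) * mono x s.1) := by
      have : |k r * g r| = k r * g r := abs_of_pos (mul_pos hkr hgr)
      rw [this]
      calc k r * mono x r.1 * g r = (k r * g r) * mono x r.1 := by ring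
        _ ≤ (k r * g r) * (Real.exp (-L) * mono x s.1) :=
          mul_le_mul_of_nonneg_left h1 (mul_pos hkr hgr).le
    have h3 : |k r * g r| * (Real.exp (-L) * mono x s.1)
        = (|k r * g r| / |k s * g s|) * (Real.exp (-L) * (k s * mono x s.1 * |g s|)) := by
      have : |k s * g s| = k s * |g s| := by rw [abs_mul, abs_of_pos hks]
      have hgs' : |g s| ≠ 0 := (abs_pos.mpr hgs.ne).ne'
      rw [this]
      field_simp
    have h4 : Real.exp (-L) * (k s * mono x s.1 * |g s|) ≤ Real.exp (-L) * D :=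
      mul_le_mul_of_nonneg_left (hDle s hs hgs) (Real.exp_pos _).le
    have h5 : |k r * g r| / |k s * g s| ≤ ∑ s ∈ R, |k r * g r| / |k s * g s| :=
      Finset.single_le_sum (f := fun s => |k r * g r| / |k s * g s|)
        (fun t _ => div_nonneg (abs_nonneg _) (abs_nonneg _)) hs
    calc k r * mono x r.1 * g r ≤ |k r * g r| * (Real.exp (-L) * mono x s.1) := h2
      _ = (|k r * g r| / |k s * g s|) * (Real.exp (-L) * (k s * mono x s.1 * |g s|)) := h3
      _ ≤ (|k r * g r| / |k s * g s|) * (Real.exp (-L) * D) :=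
        mul_le_mul_of_nonneg_left h4 (div_nonneg (abs_nonneg _) (abs_nonneg _))
      _ ≤ (∑ s ∈ R, |k r * g r| / |k s * g s|) * (Real.exp (-L) * D) :=
        mul_le_mul_of_nonneg_right h5 (mul_nonneg (Real.exp_pos _).le hDpos.le)
  -- split the sum
  have hsplit : ∑ r ∈ R, k r * mono x r.1 * (dotC w r.2 - dotC w r.1)
      ≤ M * (Real.exp (-L) * D) - D := by
    have hpt : ∀ r ∈ R, k r * mono x r.1 * g r
        ≤ (∑ s ∈ R, |k r * g r| / |k s * g s|) * (Real.exp (-L) * D)
          - (if g r < 0 then k r * mono x r.1 * |g r| else 0) := by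
      intro r hr
      have hS : 0 ≤ (∑ s ∈ R, |k r * g r| / |k s * g s|) * (Real.exp (-L) * D) :=
        mul_nonneg (Finset.sum_nonneg fun s _ => div_nonneg (abs_nonneg _) (abs_nonneg _))
          (mul_nonneg (Real.exp_pos _).le hDpos.le)
      rcases lt_trichotomy (g r) 0 with h | h | h
      · rw [if_pos h, abs_of_neg h]
        linarith [hS]
      · simp only [h, mul_zero, lt_irrefl, if_false, sub_zero]
        simpa [h] using hS
      · rw [if_neg (not_lt.mpr h.le), sub_zero]
        exact hup r hr h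
    calc ∑ r ∈ R, k r * mono x r.1 * (dotC w r.2 - dotC w r.1)
        = ∑ r ∈ R, k r * mono x r.1 * g r := rfl
      _ ≤ ∑ r ∈ R, ((∑ s ∈ R, |k r * g r| / |k s * g s|) * (Real.exp (-L) * D)
          - (if g r < 0 then k r * mono x r.1 * |g r| else 0)) := Finset.sum_le_sum hpt
      _ = M * (Real.exp (-L) * D) - D := by
        rw [Finset.sum_sub_distrib, ← Finset.sum_mul, ← hM, hD, Finset.sum_filter]
  have hML : M * Real.exp (-L) < 1 := by
    rw [Real.exp_neg, ← div_eq_mul_inv, div_lt_one (Real.exp_pos L)]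
    exact hL
  calc ∑ r ∈ R, k r * mono x r.1 * (dotC w r.2 - dotC w r.1)
      ≤ M * (Real.exp (-L) * D) - D := hsplit
    _ = (M * Real.exp (-L) - 1) * D := by ring
    _ < 0 := mul_neg_of_neg_of_pos (by linarith) hDpos

end Crest.Agent.R092
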