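import Crest.Agent.R092.Field

/-!
Result 92 (S0122): final assembly from Part 1, Part 2 and Part 3.
-/

set_option autoImplicit false

namespace Crest.Agent.R092
open Filter Crest.AnalysisR.MassAction

lemma field_contDiff {d : ℕ} (R : Network d) (k : (Fin d → ℕ) × (Fin d → ℕ) → ℝ) :
    ContDiff ℝ 1 (field R k) := by
  rw [contDiff_pi]
  intro j
  have : (fun x : Fin d → ℝ => field R k x j)
      = fun x => ∑ r ∈ R, (k r * ∏ i, x i ^ (r.1 i)) * reactionVector r j := by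
    funext x
    unfold field
    rw [Finset.sum_apply]
    rfl
  rw [this]
  refine ContDiff.sum fun r _ => ?_
  refine ContDiff.mul ?_ contDiff_const
  refine ContDiff.mul contDiff_const ?_
  exact contDiff_prod fun i _ => (contDiff_apply ℝ ℝ i).pow _

lemma field_mem {d : ℕ} (R : Network d) (k : (Fin d → ℕ) × (Fin d → ℕ) → ℝ) (x : Fin d → ℝ) :
    field R k x ∈ stoichSubspace R :=
  Submodule.sum_mem _ fun r hr =>
    Submodule.smul_mem _ _ (Submodule.subset_span ⟨r, hr, rfl⟩)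

lemma dot_eq_zero_of_span {d : ℕ} (R : Network d) (w : Fin d → ℝ)
    (h : ∀ r ∈ R, ∑ j, w j * reactionVector r j = 0) :
    ∀ s ∈ stoichSubspace R, ∑ j, w j * s j = 0 := by
  intro s hs
  unfold stoichSubspace at hs
  induction hs using Submodule.span_induction with
  | mem x hx =>
    obtain ⟨r, hr, rfl⟩ := hx
    exact h r hr
  | zero => simp
  | add x y _ _ hx hy =>
    simp only [Pi.add_apply, mul_add, Finset.sum_add_distrib, hx, hy, add_zero]
  | smul c x _ hx =>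
    have : ∑ j, w j * (c • x) j = c * ∑ j, w j * x j := by
      rw [Finset.mul_sum]
      exact Finset.sum_congr rfl fun j _ => by simp only [Pi.smul_apply, smul_eq_mul]; ring
    rw [this, hx, mul_zero]

/-- The statement of S0122, from the polytope part and the dynamics part. -/
theorem main_of_parts (h1 : Part1) (h3 : Part3)
    (d : ℕ) (hd : 1 ≤ d) (R : Network d) (hR : IsWeaklyReversible R)
    (k : (Fin d → ℕ) × (Fin d → ℕ) → ℝ) (hk : ∀ r ∈ R, 0 < k r)
    (c : Fin d → ℝ) (hc : ∀ i, 0 < c i) :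
    ∃ K : Set (Fin d → ℝ), K ⊆ positiveClass R c ∧ K.Nonempty ∧ IsCompact K ∧ Convex ℝ K ∧
      (∀ x : ℝ → (Fin d → ℝ), IsForwardSolution (field R k) x → x 0 ∈ K →
        ∀ t : ℝ, 0 ≤ t → x t ∈ K) ∧
      (∀ x₀ ∈ positiveClass R c,
        (∃ x : ℝ → (Fin d → ℝ), IsForwardSolution (field R k) x ∧ x 0 = x₀) ∧
        (∀ x x' : ℝ → (Fin d → ℝ), IsForwardSolution (field R k) x →
          IsForwardSolution (field R k) x' → x 0 = x₀ → x' 0 = x₀ →
          ∀ t : ℝ, 0 ≤ t → x t = x' t) ∧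
        (∀ x : ℝ → (Fin d → ℝ), IsForwardSolution (field R k) x → x 0 = x₀ →
          (∀ t : ℝ, 0 ≤ t → ∀ i, 0 < x t i) ∧
          ∃ T : ℝ, 0 ≤ T ∧ ∀ t : ℝ, T ≤ t → x t ∈ K)) := by
  classical
  -- a bound for all coefficients
  obtain ⟨Q, hQ⟩ : ∃ Q : ℕ, ∀ r ∈ R, ∀ j, r.1 j ≤ Q ∧ r.2 j ≤ Q := by
    refine ⟨∑ r ∈ R, ∑ j, (r.1 j + r.2 j), fun r hr j => ?_⟩
    have h1 : r.1 j + r.2 j ≤ ∑ j, (r.1 j + r.2 j) :=
      Finset.single_le_sum (f := fun j => r.1 j + r.2 j) (fun _ _ => Nat.zero_le _)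
        (Finset.mem_univ j)
    have h2 : ∑ j, (r.1 j + r.2 j) ≤ ∑ r ∈ R, ∑ j, (r.1 j + r.2 j) :=
      Finset.single_le_sum (f := fun r : (Fin d → ℕ) × (Fin d → ℕ) => ∑ j, (r.1 j + r.2 j))
        (fun _ _ => Nat.zero_le _) hr
    omega
  obtain ⟨ι, hι, a, b, D, hb, hA, hB, hC⟩ := h1 d hd Q
  have hev : ∀ᶠ L in atTop, ∀ x, Sat a b L x →
      ∀ i, ∑ j, a i j * x j = b i L →
        (∀ s ∈ stoichSubspace R, ∑ j, a i j * s j = 0) ∨ ∑ j, a i j * field R k x j < 0 := by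
    have h2 : ∀ᶠ L in atTop, ∀ i : ι, ∀ x : Fin d → ℝ, (∀ j, 0 < x j) → Compat Q L (a i) x →
        (∀ r ∈ R, ∑ j, a i j * reactionVector r j = 0) ∨ ∑ j, a i j * field R k x j < 0 :=
      eventually_all.mpr fun i => part2 d R hR k hk Q hQ (a i)
    filter_upwards [h2, hB, hC] with L h2L hBL hCL x hx i hi
    have hxpos : ∀ j, 0 < x j := fun j => lt_of_lt_of_le (Real.exp_pos _) (hBL x hx j).1
    rcases h2L i x hxpos (hCL x hx i hi) with h | h
    · exact Or.inl (dot_eq_zero_of_span R (a i) h)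
    · exact Or.inr h
  exact h3 d (field R k) (field_contDiff R k) (stoichSubspace R) (field_mem R k) c hc ι a b D hb
    hA hB hev

end Crest.Agent.R092
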