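import Mathlib
import Crest.Agent.R092.Interface

/-!
Interface for Part 1 of result 92 (S0122): tree / comparison / assembly.
(helper92)
-/

set_option autoImplicit false

namespace Crest.Agent.R092
open Filter

/-- A member of a tree of depth `m`: levels `w`, cost exponents `tau`, localisation radius `eps`. -/
@[ext]
structure Mem (m : ℕ) where
  w : Fin m → ℝ
  tau : Fin m → ℝ
  eps : ℝ

/-- Dot product. -/
def dotp {m : ℕ} (v w : Fin m → ℝ) : ℝ := ∑ i, v i * w i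

/-- The properties of the finite tree (leaves only are recorded). -/
structure TreeProp {k : ℕ} (s R κ C : ℝ) (D : Set (Fin (k + 1) → ℝ)) (T : Set (Mem (k + 1))) :
    Prop where
  fin : T.Finite
  anti : ∀ a ∈ T, Antitone a.w
  root : ∀ a ∈ T, a.w 0 = s
  eps_ge : ∀ a ∈ T, κ ≤ a.eps
  tau_ge : ∀ a ∈ T, ∀ i, i ≠ 0 → a.w i - a.eps ≤ a.tau i
  /-- minimal continuation from coordinate `i` on -/
  low : ∀ a ∈ T, ∀ i, i ≠ 0 → ∃ b ∈ T, (∀ j < i, b.w j = a.w j ∧ b.tau j = a.tau j) ∧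
    ∀ j, i ≤ j → b.tau j ≤ -(R + 1)
  /-- the top member -/
  top : ∃ b ∈ T, (∀ j, b.w j = s) ∧ ∀ j, j ≠ 0 → b.tau j ≤ s - κ
  /-- localisation -/
  loc : ∀ a ∈ T, ∀ Y : Fin (k + 1) → ℝ, Antitone Y → (∀ j, -R ≤ Y j) → |Y 0 - s| ≤ κ →
    (∀ i, i ≠ 0 → a.tau i ≤ Y i + κ) →
    (∀ i, i ≠ 0 → ∀ b ∈ T, (∀ j < i, b.w j = a.w j ∧ b.tau j = a.tau j) → a.w i < b.w i →
      (∀ j, i ≤ j → b.w j = b.w i ∧ b.tau j ≤ b.tau i) → Y i ≤ b.tau i + κ) →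
    ∀ j, |Y j - a.w j| ≤ a.eps
  /-- gap property -/
  gap : ∀ a ∈ T, ∀ v ∈ D, dotp v a.w = 0 ∨ C * a.eps ≤ |dotp v a.w|

/-- P1a: existence of trees (owner helper92). -/
def P1a : Prop :=
  ∀ (k : ℕ) (s R C : ℝ) (D : Set (Fin (k + 1) → ℝ)), D.Finite →
    ∃ κ : ℝ, 0 < κ ∧ ∃ T : Set (Mem (k + 1)), TreeProp s R κ C D T

/-- The cost of a member at scale `L`. -/
noncomputable def cost {k : ℕ} (L : ℝ) (a : Mem (k + 1)) : ℝ :=
  ∑ i : Fin k, Real.exp (L * a.tau i.succ)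

/-- P1b.1: localisation of maximisers. -/
def P1b1 : Prop :=
  ∀ (k : ℕ) (s R κ C : ℝ) (D : Set (Fin (k + 1) → ℝ)) (T : Set (Mem (k + 1))),
    (s = 1 ∨ s = -1) → 0 < κ → TreeProp s R κ C D T →
    ∀ᶠ L in atTop, ∀ x : Fin (k + 1) → ℝ, Antitone x → (∀ j, Real.exp (-(R * L)) ≤ x j) →
      ∀ a ∈ T, (∀ b ∈ T, dotp b.w x - cost L b ≤ dotp a.w x - cost L a) →
      dotp a.w x - cost L a = s * Real.exp (s * L) →
      ∀ j, |Real.log (x j) / L - a.w j| ≤ a.eps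

/-- P1b.2: lower bound for the largest coordinate from the family with `s = -1`. -/
def P1b2 : Prop :=
  ∀ (k : ℕ) (R κ C : ℝ) (D : Set (Fin (k + 1) → ℝ)) (T : Set (Mem (k + 1))),
    0 < R → 0 < κ → TreeProp (-1) R κ C D T →
    ∀ᶠ L in atTop, ∀ x : Fin (k + 1) → ℝ, Antitone x → (∀ j, 0 < x j) →
      (∀ b ∈ T, dotp b.w x - cost L b ≤ -Real.exp (-L)) → Real.exp (-(2 * L)) ≤ x 0

/-- P1b.3: upper bound from the family with `s = 1`. -/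
def P1b3 : Prop :=
  ∀ (k : ℕ) (R κ C : ℝ) (D : Set (Fin (k + 1) → ℝ)) (T : Set (Mem (k + 1))),
    0 < κ → TreeProp 1 R κ C D T →
    ∀ᶠ L in atTop, ∀ x : Fin (k + 1) → ℝ, (∀ j, 0 < x j) →
      (∀ b ∈ T, dotp b.w x - cost L b ≤ Real.exp L) → ∀ j, x j ≤ Real.exp (2 * L)

/-- P1c: assembly. -/
def P1c : Prop := P1a → P1b1 → P1b2 → P1b3 → Part1

end Crest.Agent.R092
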