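import Mathlib

/-!
Part 1 of result 92 (helper430): finite families of affine functions whose maximiser
rounds `-log x / t` with an arbitrary prescribed tolerance `G`.
-/

set_option autoImplicit false

namespace Crest.Agent.R092.Rnd
open Filter Finset Real

/-- A pair: normal vector, and offset as a function of the parameter `t`. -/
abbrev Aff (ι : Type) := (ι → ℝ) × (ℝ → ℝ)

variable {ι : Type} [Fintype ι] [DecidableEq ι]

/-- value of the affine function -/
noncomputable def V (p : Aff ι) (t : ℝ) (x : ι → ℝ) : ℝ := p.2 t - ∑ j, p.1 j * x j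

/-- modify `a` to be `r` on `J` -/
def setOn (J : Finset ι) (a : ι → ℝ) (r : ℝ) : ι → ℝ := fun j => if j ∈ J then r else a j

/-- the root element -/
def root (J : Finset ι) (a : ι → ℝ) (r : ℝ) : Aff ι := (setOn J a r, fun _ => 0)

/-- the point `x = exp (-t w)` has `|w j - p.1 j| < G p.1` -/
def Near (G : (ι → ℝ) → ℝ) (t : ℝ) (x : ι → ℝ) (p : Aff ι) (j : ι) : Prop :=
  exp (-(t * (p.1 j + G p.1))) < x j ∧ x j < exp (-(t * (p.1 j - G p.1)))

structure IsRaise (G : (ι → ℝ) → ℝ) (κ : ℝ) (J : Finset ι) (a : ι → ℝ) (s τ : ℝ)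
    (F : Set (Aff ι)) : Prop where
  fin : F.Finite
  first : ∃ c : ℝ, 0 < c ∧ ((setOn J a (s + c), fun t => c * exp (-(t * τ))) : Aff ι) ∈ F
  off : ∀ p ∈ F, ∀ j, j ∉ J → p.1 j = a j
  up : ∀ p ∈ F, ∀ j ∈ J, τ ≤ p.1 j
  smooth : ∀ p ∈ F, ContDiff ℝ 1 p.2
  bound : ∃ C : ℝ, 0 ≤ C ∧ ∀ p ∈ F, ∀ t : ℝ, 0 ≤ t → p.2 t ≤ C * exp (-(t * τ))
  round : ∀ᶠ t : ℝ in atTop, ∀ x : ι → ℝ, (∀ j, 0 < x j) → (∀ j ∈ J, exp (-(t * κ)) ≤ x j) →
    ∀ p ∈ F, (∀ q ∈ F, V q t x ≤ V p t x) → V (root J a s) t x ≤ V p t x →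
    ∀ j ∈ J, Near G t x p j

structure IsNode (G : (ι → ℝ) → ℝ) (κ : ℝ) (J : Finset ι) (a : ι → ℝ) (r θ ω : ℝ)
    (F : Set (Aff ι)) : Prop where
  fin : F.Finite
  root_mem : root J a r ∈ F
  off : ∀ p ∈ F, ∀ j, j ∉ J → p.1 j = a j
  up : ∀ p ∈ F, ∀ j ∈ J, r ≤ p.1 j
  smooth : ∀ p ∈ F, ContDiff ℝ 1 p.2
  bound : ∃ C δ : ℝ, 0 ≤ C ∧ 0 < δ ∧ ∀ p ∈ F, ∀ t : ℝ, 0 ≤ t →
    p.2 t ≤ C * exp (-(t * (r + θ + δ)))
  round : ∀ c : ℝ, 0 < c → ∀ᶠ t : ℝ in atTop, ∀ x : ι → ℝ, (∀ j, 0 < x j) →
    (∀ j ∈ J, exp (-(t * κ)) ≤ x j) →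
    (∀ j ∈ J, x j ≤ exp (-(t * (r - ω)))) →
    c * exp (-(t * (r + θ))) ≤ ∑ j ∈ J, x j →
    ∀ p ∈ F, (∀ q ∈ F, V q t x ≤ V p t x) →
    ∀ j ∈ J, Near G t x p j

/-! ### basic lemmas -/

theorem exp_dom {τ₁ τ₂ : ℝ} (h : τ₁ < τ₂) (C : ℝ) {c : ℝ} (hc : 0 < c) :
    ∀ᶠ t : ℝ in atTop, C * exp (-(t * τ₂)) < c * exp (-(t * τ₁)) := by
  have h1 : Tendsto (fun t : ℝ => C * exp (-(t * (τ₂ - τ₁)))) atTop (nhds (C * 0)) := by
    apply Tendsto.const_mul
    apply Real.tendsto_exp_neg_atTop_nhds_zero.comp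
    exact tendsto_id.atTop_mul_const (by linarith)
  rw [mul_zero] at h1
  have h2 := h1.eventually (gt_mem_nhds hc)
  filter_upwards [h2] with t ht
  have h3 : exp (-(t * τ₂)) = exp (-(t * (τ₂ - τ₁))) * exp (-(t * τ₁)) := by
    rw [← Real.exp_add]; congr 1; ring
  rw [h3, ← mul_assoc]
  exact mul_lt_mul_of_pos_right ht (Real.exp_pos _)

theorem V_root (J : Finset ι) (a : ι → ℝ) (r t : ℝ) (x : ι → ℝ) :
    V (root J a r) t x = - (∑ j ∈ Finset.univ \ J, a j * x j) - r * ∑ j ∈ J, x j := by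
  unfold V root setOn
  simp only
  rw [← Finset.sum_sdiff (Finset.subset_univ J), Finset.mul_sum]
  have h1 : ∑ j ∈ Finset.univ \ J, (if j ∈ J then r else a j) * x j
      = ∑ j ∈ Finset.univ \ J, a j * x j := by
    apply Finset.sum_congr rfl
    intro j hj
    rw [if_neg (Finset.mem_sdiff.1 hj).2]
  have h2 : ∑ j ∈ J, (if j ∈ J then r else a j) * x j = ∑ j ∈ J, r * x j := by
    apply Finset.sum_congr rfl
    intro j hj
    rw [if_pos hj]
  rw [h1, h2]; ring

theorem V_eq (J : Finset ι) (a : ι → ℝ) (p : Aff ι) (hp : ∀ j, j ∉ J → p.1 j = a j)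
    (r t : ℝ) (x : ι → ℝ) :
    V p t x = V (root J a r) t x + p.2 t - ∑ j ∈ J, (p.1 j - r) * x j := by
  rw [V_root]
  unfold V
  rw [← Finset.sum_sdiff (Finset.subset_univ J)]
  have h1 : ∑ j ∈ Finset.univ \ J, p.1 j * x j
      = ∑ j ∈ Finset.univ \ J, a j * x j := by
    apply Finset.sum_congr rfl
    intro j hj
    rw [hp j (Finset.mem_sdiff.1 hj).2]
  have h2 : ∑ j ∈ J, (p.1 j - r) * x j = ∑ j ∈ J, p.1 j * x j - r * ∑ j ∈ J, x j := by
    rw [Finset.mul_sum, ← Finset.sum_sub_distrib]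
    apply Finset.sum_congr rfl
    intro j _; ring
  rw [h1, h2]; ring

theorem V_setOn (J : Finset ι) (a : ι → ℝ) (β : ℝ → ℝ) (r c t : ℝ) (x : ι → ℝ) :
    V (setOn J a (r + c), β) t x = V (root J a r) t x + β t - c * ∑ j ∈ J, x j := by
  rw [V_eq J a (setOn J a (r + c), β) (by intro j hj; simp [setOn, hj]) r]
  congr 1
  rw [Finset.mul_sum]
  apply Finset.sum_congr rfl
  intro j hj
  simp [setOn, hj]

theorem V_shift (p : Aff ι) (γ : ℝ → ℝ) (t : ℝ) (x : ι → ℝ) :
    V (p.1, fun t => γ t + p.2 t) t x = γ t + V p t x := by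
  unfold V; simp only; ring

/-- Terminal case. -/
theorem raise_terminal (G : (ι → ℝ) → ℝ) (hG : ∀ a, 0 < G a) (κ : ℝ) (J : Finset ι)
    (a : ι → ℝ) (s τ : ℝ) (hs : s < τ) (hκ : κ ≤ τ) :
    ∃ F, IsRaise G κ J a s τ F := by
  refine ⟨{(setOn J a (s + (τ - s)), fun t => (τ - s) * exp (-(t * τ)))}, ?_⟩
  have hτs : 0 < τ - s := by linarith
  refine ⟨Set.finite_singleton _, ⟨τ - s, hτs, rfl⟩, ?_, ?_, ?_, ?_, ?_⟩
  · rintro p rfl j hj
    simp [setOn, hj]
  · rintro p rfl j hj
    simp [setOn, hj]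
  · rintro p rfl
    simp only
    fun_prop
  · refine ⟨τ - s, hτs.le, ?_⟩
    rintro p rfl t ht
    exact le_rfl
  · filter_upwards [eventually_gt_atTop (0 : ℝ)] with t ht x hx hxκ p hp hmax hroot j hj
    obtain rfl := hp
    rw [V_setOn] at hroot
    have h1 : ∑ j ∈ J, x j ≤ exp (-(t * τ)) := by
      have : (τ - s) * ∑ j ∈ J, x j ≤ (τ - s) * exp (-(t * τ)) := by linarith
      exact le_of_mul_le_mul_left this hτs
    have h2 : x j ≤ ∑ j ∈ J, x j :=
      Finset.single_le_sum (f := x) (fun i _ => (hx i).le) hj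
    have h3 : setOn J a (s + (τ - s)) j = τ := by simp [setOn, hj]
    unfold Near
    simp only
    rw [h3]
    have hGp := hG (setOn J a (s + (τ - s)))
    constructor
    · refine lt_of_lt_of_le ?_ (hxκ j hj)
      apply Real.exp_lt_exp.2
      nlinarith
    · refine lt_of_le_of_lt (h2.trans h1) ?_
      apply Real.exp_lt_exp.2
      nlinarith

/-- Step: combine a node family at `r` and a raise family from `r`. -/
theorem raise_step (G : (ι → ℝ) → ℝ) (κ : ℝ) (J : Finset ι)
    (a : ι → ℝ) (s τ r θ ω : ℝ) (hs : s < τ) (hτr : τ ≤ r) (hrω : r - ω < τ)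
    (hθ : 0 < θ) (F F' : Set (Aff ι)) (hF : IsNode G κ J a r θ ω F)
    (hF' : IsRaise G κ J a r (r + θ) F') :
    ∃ H, IsRaise G κ J a s τ H := by
  have hrs : 0 < r - s := by linarith
  refine ⟨(fun p : Aff ι => ((p.1, fun t => (r - s) * exp (-(t * τ)) + p.2 t) : Aff ι)) '' (F ∪ F'),
    ?_⟩
  obtain ⟨C₁, δ, hC₁, hδ, hb₁⟩ := hF.bound
  obtain ⟨C₂, hC₂, hb₂⟩ := hF'.bound
  refine ⟨(hF.fin.union hF'.fin).image _, ⟨r - s, hrs, ?_⟩, ?_, ?_, ?_, ?_, ?_⟩
  · refine ⟨root J a r, Or.inl hF.root_mem, ?_⟩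
    unfold root
    simp
  · rintro _ ⟨p, hp | hp, rfl⟩ j hj
    · exact hF.off p hp j hj
    · exact hF'.off p hp j hj
  · rintro _ ⟨p, hp | hp, rfl⟩ j hj
    · exact hτr.trans (hF.up p hp j hj)
    · have := hF'.up p hp j hj
      show τ ≤ p.1 j
      linarith
  · rintro _ ⟨p, hp | hp, rfl⟩
    · have := hF.smooth p hp
      simp only
      fun_prop
    · have := hF'.smooth p hp
      simp only
      fun_prop
  · refine ⟨(r - s) + (C₁ + C₂), by linarith, ?_⟩
    rintro _ ⟨p, hp | hp, rfl⟩ t ht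
    · have h1 := hb₁ p hp t ht
      have h2 : exp (-(t * (r + θ + δ))) ≤ exp (-(t * τ)) := by
        apply Real.exp_le_exp.2
        nlinarith
      have h3 := Real.exp_pos (-(t * τ))
      simp only
      nlinarith
    · have h1 := hb₂ p hp t ht
      have h2 : exp (-(t * (r + θ))) ≤ exp (-(t * τ)) := by
        apply Real.exp_le_exp.2
        nlinarith
      have h3 := Real.exp_pos (-(t * τ))
      simp only
      nlinarith
  · obtain ⟨c', hc', hfirst⟩ := hF'.first
    have e1 := exp_dom (τ₁ := r - ω) (τ₂ := τ) hrω ((r - s + C₁) / (r - s)) one_pos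
    have e2 := exp_dom (τ₁ := r + θ) (τ₂ := r + θ + δ) (by linarith) (C₁ / c')
      (c := 1 / 2) (by norm_num)
    filter_upwards [hF.round (1 / 2) (by norm_num), hF'.round, e1, e2,
      eventually_gt_atTop (0 : ℝ)] with t hr1 hr2 he1 he2 ht x hx hxκ p' hp' hmax hroot j hj
    obtain ⟨p, hp, rfl⟩ := hp'
    rw [V_shift p (fun t => (r - s) * exp (-(t * τ)))] at hroot
    have hmax' : ∀ q ∈ F ∪ F', V q t x ≤ V p t x := by
      intro q hq
      have h1 := hmax _ ⟨q, hq, rfl⟩
      rw [V_shift p (fun t => (r - s) * exp (-(t * τ))),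
        V_shift q (fun t => (r - s) * exp (-(t * τ)))] at h1
      linarith
    have hrootr : V (root J a r) t x ≤ V p t x := hmax' _ (Or.inl hF.root_mem)
    have hSpos : 0 ≤ ∑ j ∈ J, x j := Finset.sum_nonneg fun i _ => (hx i).le
    have hbase : V (root J a s) t x = V (root J a r) t x + (r - s) * ∑ j ∈ J, x j := by
      rw [V_root, V_root]; ring
    rcases hp with hp | hp
    · -- node case
      have hVp : V p t x ≤ V (root J a r) t x + C₁ * exp (-(t * (r + θ + δ))) := by
        rw [V_eq J a p (hF.off p hp) r]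
        have h1 := hb₁ p hp t ht.le
        have h2 : 0 ≤ ∑ j ∈ J, (p.1 j - r) * x j := by
          apply Finset.sum_nonneg
          intro i hi
          exact mul_nonneg (by linarith [hF.up p hp i hi]) (hx i).le
        linarith
      have hS1 : (r - s) * ∑ j ∈ J, x j ≤ (r - s + C₁) * exp (-(t * τ)) := by
        have h2 : exp (-(t * (r + θ + δ))) ≤ exp (-(t * τ)) := by
          apply Real.exp_le_exp.2
          nlinarith
        rw [hbase] at hroot
        nlinarith
      have hS1' : ∑ j ∈ J, x j ≤ (r - s + C₁) / (r - s) * exp (-(t * τ)) := by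
        rw [div_mul_eq_mul_div, le_div_iff₀ hrs]
        linarith
      have hx1 : ∀ j ∈ J, x j ≤ exp (-(t * (r - ω))) := by
        intro i hi
        have h2 : x i ≤ ∑ j ∈ J, x j :=
          Finset.single_le_sum (f := x) (fun i _ => (hx i).le) hi
        linarith
      have hS2 : 1 / 2 * exp (-(t * (r + θ))) ≤ ∑ j ∈ J, x j := by
        have h1 := hmax' _ (Or.inr hfirst)
        rw [V_setOn] at h1
        have h2 : c' * exp (-(t * (r + θ))) - c' * ∑ j ∈ J, x j
            ≤ C₁ * exp (-(t * (r + θ + δ))) := by linarith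
        have h3 : exp (-(t * (r + θ))) - ∑ j ∈ J, x j
            ≤ C₁ / c' * exp (-(t * (r + θ + δ))) := by
          rw [div_mul_eq_mul_div, le_div_iff₀ hc']
          linarith
        linarith
      exact hr1 x hx hxκ hx1 hS2 p hp (fun q hq => hmax' q (Or.inl hq)) j hj
    · -- raise case
      exact hr2 x hx hxκ p hp (fun q hq => hmax' q (Or.inr hq)) hrootr j hj

/-- Raise families exist as soon as node families exist (downward real induction). -/
theorem raise_of_node (G : (ι → ℝ) → ℝ) (hG : ∀ a, 0 < G a) (κ : ℝ) (J : Finset ι)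
    (hnode : ∀ (a : ι → ℝ) (r : ℝ), ∃ (θ ω : ℝ) (F : Set (Aff ι)), 0 < θ ∧ 0 < ω ∧
      IsNode G κ J a r θ ω F) (a : ι → ℝ) (s τ : ℝ) (hs : s < τ) :
    ∃ F, IsRaise G κ J a s τ F := by
  set B : Set ℝ := {τ | ¬ ∀ s, s < τ → ∃ F, IsRaise G κ J a s τ F} with hB
  by_contra hcon
  have hτB : τ ∈ B := fun h => hcon (h s hs)
  have hBdd : BddAbove B := by
    refine ⟨κ, ?_⟩
    intro τ' hτ'
    by_contra hlt
    push Not at hlt
    exact hτ' fun s' hs' => raise_terminal G hG κ J a s' τ' hs' hlt.le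
  obtain ⟨θ, ω, F, hθ, hω, hF⟩ := hnode a (sSup B)
  have h1 : sSup B + θ ∉ B := by
    intro h
    have := le_csSup hBdd h
    linarith
  have h2 : ∀ s', s' < sSup B + θ → ∃ F, IsRaise G κ J a s' (sSup B + θ) F := by
    by_contra h
    exact h1 h
  obtain ⟨F', hF'⟩ := h2 (sSup B) (by linarith)
  obtain ⟨τ', hτ'B, hτ'⟩ := exists_lt_of_lt_csSup ⟨τ, hτB⟩ (show sSup B - ω < sSup B by linarith)
  refine hτ'B fun s' hs' => ?_
  exact raise_step G κ J a s' τ' (sSup B) θ ω hs' (le_csSup hBdd hτ'B) hτ' hθ F F' hF hF'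

/-- positive lower bound of a positive function on a finite set -/
theorem exists_pos_lower {α : Type*} (f : α → ℝ) (hf : ∀ a, 0 < f a) (S : Set α)
    (hS : S.Finite) : ∃ c : ℝ, 0 < c ∧ ∀ a ∈ S, c < f a := by
  induction S, hS using Set.Finite.induction_on with
  | empty => exact ⟨1, one_pos, by simp⟩
  | @insert a S _ _ ih =>
    obtain ⟨c, hc, h⟩ := ih
    refine ⟨min c (f a / 2), lt_min hc (by linarith [hf a]), ?_⟩
    intro b hb
    rcases Set.mem_insert_iff.1 hb with rfl | hb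
    · exact (min_le_right _ _).trans_lt (by linarith [hf b])
    · exact (min_le_left _ _).trans_lt (h b hb)

/-- recursive choice of a fast decreasing sequence -/
theorem exists_seq (P : ℕ → ℝ → ℝ → Prop) (hP : ∀ k θ, 0 < θ → ∃ c, 0 < c ∧ P k θ c)
    (θ₀ : ℝ) (hθ₀ : 0 < θ₀) :
    ∃ θ : ℕ → ℝ, θ 0 = θ₀ ∧ (∀ k, 0 < θ k) ∧ ∀ k, P k (θ k) (θ (k + 1)) := by
  classical
  choose! c hc hPc using hP
  let θ : ℕ → ℝ := fun n => Nat.rec θ₀ (fun k x => c k x) n
  have hpos : ∀ k, 0 < θ k := by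
    intro k
    induction k with
    | zero => exact hθ₀
    | succ k ih => exact hc k _ ih
  exact ⟨θ, rfl, hpos, fun k => hPc k _ (hpos k)⟩

theorem setOn_setOn (J K : Finset ι) (hJK : J ⊆ K) (a : ι → ℝ) (r : ℝ) :
    setOn J (setOn K a r) r = setOn K a r := by
  funext j
  unfold setOn
  by_cases h1 : j ∈ J
  · simp [h1, hJK h1]
  · simp [h1]

/-- Node families from raise families on proper subsets. -/
theorem node_of_raise (G : (ι → ℝ) → ℝ) (hG : ∀ a, 0 < G a) (κ : ℝ) (J : Finset ι)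
    (hJ : J.Nonempty)
    (hraise : ∀ J' : Finset ι, J' ⊂ J → J'.Nonempty → ∀ (a : ι → ℝ) (s τ : ℝ), s < τ →
      ∃ F, IsRaise G κ J' a s τ F) (a : ι → ℝ) (r : ℝ) :
    ∃ (θ ω : ℝ) (F : Set (Aff ι)), 0 < θ ∧ 0 < ω ∧ IsNode G κ J a r θ ω F := by
  classical
  set a' := setOn J a r with ha'
  have hr' : ∀ (J' : Finset ι) (θ : ℝ), ∃ F : Set (Aff ι), (J' ⊂ J → J'.Nonempty → 0 < θ →
      IsRaise G κ J' a' r (r + θ) F) := by
    intro J' θ
    by_cases h : J' ⊂ J ∧ J'.Nonempty ∧ 0 < θ
    · obtain ⟨F, hF⟩ := hraise J' h.1 h.2.1 a' r (r + θ) (by linarith [h.2.2])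
      exact ⟨F, fun _ _ _ => hF⟩
    · exact ⟨∅, fun h1 h2 h3 => (h ⟨h1, h2, h3⟩).elim⟩
  choose 𝓖 h𝓖 using hr'
  -- the index set of proper nonempty subsets
  set T : Finset (Finset ι) := J.ssubsets.filter (fun J' => J'.Nonempty) with hT
  have hTmem : ∀ J', J' ∈ T ↔ J' ⊂ J ∧ J'.Nonempty := by
    intro J'; simp [hT, Finset.mem_ssubsets]
  obtain ⟨θ, hθ0, hθpos, hθ⟩ := exists_seq
    (fun k θ c => c < θ ∧ ∀ J' ∈ T, ∀ p ∈ 𝓖 J' θ, c < G p.1) (by
      intro k θ hθ
      have hfin : (⋃ J' ∈ T, 𝓖 J' θ).Finite := by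
        apply Set.Finite.biUnion (Finset.finite_toSet T)
        intro J' hJ'
        have := (hTmem J').1 hJ'
        exact (h𝓖 J' θ this.1 this.2 hθ).fin
      obtain ⟨c, hc, hc'⟩ := exists_pos_lower (fun p : Aff ι => G p.1) (fun p => hG _) _ hfin
      refine ⟨min c (θ / 2), lt_min hc (by linarith), ?_, ?_⟩
      · exact (min_le_right _ _).trans_lt (by linarith)
      · intro J' hJ' p hp
        refine (min_le_left _ _).trans_lt (hc' p ?_)
        simp only [Set.mem_iUnion]
        exact ⟨J', hJ', hp⟩) (G a') (hG a')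
  have hanti : StrictAnti θ := strictAnti_nat_of_succ_lt fun n => (hθ n).1
  have hR : ∀ J' ∈ T, IsRaise G κ J' a' r (r + θ J'.card) (𝓖 J' (θ J'.card)) := by
    intro J' hJ'
    have := (hTmem J').1 hJ'
    exact h𝓖 J' _ this.1 this.2 (hθpos _)
  set F : Set (Aff ι) := insert (root J a r) (⋃ J' ∈ T, 𝓖 J' (θ J'.card)) with hFdef
  have hFfin : F.Finite := by
    apply Set.Finite.insert
    apply Set.Finite.biUnion (Finset.finite_toSet T)
    intro J' hJ'
    exact (hR J' hJ').fin
  obtain ⟨ω, hω, hωF⟩ := exists_pos_lower (fun p : Aff ι => G p.1) (fun p => hG _) F hFfin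
  have hmemF : ∀ p ∈ F, p = root J a r ∨ ∃ J' ∈ T, p ∈ 𝓖 J' (θ J'.card) := by
    intro p hp
    rcases Set.mem_insert_iff.1 hp with h | h
    · exact Or.inl h
    · simp only [Set.mem_iUnion] at h
      obtain ⟨J', hJ', h⟩ := h
      exact Or.inr ⟨J', hJ', h⟩
  have hsubF : ∀ J' ∈ T, ∀ p ∈ 𝓖 J' (θ J'.card), p ∈ F := by
    intro J' hJ' p hp
    refine Set.mem_insert_of_mem _ ?_
    simp only [Set.mem_iUnion]
    exact ⟨J', hJ', hp⟩
  have hcardpos : 0 < J.card := hJ.card_pos
  have hoffJ : ∀ j, j ∉ J → a' j = a j := by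
    intro j hj; simp [ha', setOn, hj]
  have honJ : ∀ j ∈ J, a' j = r := by
    intro j hj; simp [ha', setOn, hj]
  refine ⟨θ J.card, ω, F, hθpos _, hω, hFfin, Set.mem_insert _ _, ?_, ?_, ?_, ?_, ?_⟩
  · -- off
    intro p hp j hj
    rcases hmemF p hp with rfl | ⟨J', hJ', hp'⟩
    · simp [root, setOn, hj]
    · have hsub := ((hTmem J').1 hJ').1.subset
      rw [(hR J' hJ').off p hp' j (fun h => hj (hsub h)), hoffJ j hj]
  · -- up
    intro p hp j hj
    rcases hmemF p hp with rfl | ⟨J', hJ', hp'⟩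
    · simp [root, setOn, hj]
    · by_cases hjJ' : j ∈ J'
      · have := (hR J' hJ').up p hp' j hjJ'
        linarith [hθpos J'.card]
      · rw [(hR J' hJ').off p hp' j hjJ', honJ j hj]
  · -- smooth
    intro p hp
    rcases hmemF p hp with rfl | ⟨J', hJ', hp'⟩
    · unfold root; simp only; fun_prop
    · exact (hR J' hJ').smooth p hp'
  · -- bound
    have hb : ∀ J' : Finset ι, ∃ C : ℝ, 0 ≤ C ∧ (J' ∈ T → ∀ p ∈ 𝓖 J' (θ J'.card), ∀ t : ℝ,
        0 ≤ t → p.2 t ≤ C * exp (-(t * (r + θ J'.card)))) := by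
      intro J'
      by_cases h : J' ∈ T
      · obtain ⟨C, hC, hC'⟩ := (hR J' h).bound
        exact ⟨C, hC, fun _ => hC'⟩
      · exact ⟨0, le_rfl, fun h' => (h h').elim⟩
    choose C hC hC' using hb
    refine ⟨∑ J' ∈ T, C J', θ (J.card - 1) - θ J.card, Finset.sum_nonneg fun J' _ => hC J', ?_, ?_⟩
    · have : θ J.card < θ (J.card - 1) := hanti (by omega)
      linarith
    · intro p hp t ht
      have hsumnn : 0 ≤ ∑ J' ∈ T, C J' := Finset.sum_nonneg fun J' _ => hC J'
      rcases hmemF p hp with rfl | ⟨J', hJ', hp'⟩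
      · simp only [root]
        positivity
      · have h1 := hC' J' hJ' p hp' t ht
        have h2 : C J' ≤ ∑ J' ∈ T, C J' :=
          Finset.single_le_sum (f := C) (fun i _ => hC i) hJ'
        have hlt : J'.card < J.card := Finset.card_lt_card ((hTmem J').1 hJ').1
        have h3 : θ (J.card - 1) ≤ θ J'.card := hanti.antitone (by omega)
        have h4 : exp (-(t * (r + θ J'.card))) ≤
            exp (-(t * (r + θ J.card + (θ (J.card - 1) - θ J.card)))) := by
          apply Real.exp_le_exp.2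
          nlinarith
        calc p.2 t ≤ C J' * exp (-(t * (r + θ J'.card))) := h1
          _ ≤ (∑ J' ∈ T, C J') * exp (-(t * (r + θ J.card + (θ (J.card - 1) - θ J.card)))) := by
            apply mul_le_mul h2 h4 (Real.exp_pos _).le hsumnn
  · -- round
    intro c hc
    -- a general statement for a raise family `J'` and element `j ∉ J'`
    have hrootV : ∀ J' : Finset ι, J' ⊆ J → ∀ t x, V (root J' a' r) t x = V (root J a r) t x := by
      intro J' hJ' t x
      unfold root
      rw [ha', setOn_setOn J' J hJ']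
    have hE : ∀ J' ∈ T, ∀ᶠ t : ℝ in atTop, ∀ x : ι → ℝ, (∀ j, 0 < x j) →
        (∀ j ∈ J, exp (-(t * κ)) ≤ x j) →
        (∀ j ∈ J, x j ≤ exp (-(t * (r - ω)))) →
        c * exp (-(t * (r + θ J.card))) ≤ ∑ j ∈ J, x j →
        ∀ p ∈ 𝓖 J' (θ J'.card), (∀ q ∈ F, V q t x ≤ V p t x) →
        ∀ j ∈ J, Near G t x p j := by
      intro J' hJ'
      have hJ'sub := ((hTmem J').1 hJ').1
      have hJ'ne := ((hTmem J').1 hJ').2
      set q := J'.card with hq
      have hRJ' := hR J' hJ'
      obtain ⟨C, hC, hbC⟩ := hRJ'.bound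
      -- constants `c₁` for `insert j J'`
      have hfirst : ∀ j : ι, ∃ c₁ : ℝ, 0 < c₁ ∧ (insert j J' ∈ T →
          ((setOn (insert j J') a' (r + c₁),
            fun t => c₁ * exp (-(t * (r + θ (insert j J').card)))) : Aff ι) ∈
            𝓖 (insert j J') (θ (insert j J').card)) := by
        intro j
        by_cases h : insert j J' ∈ T
        · obtain ⟨c₁, h1, h2⟩ := (hR _ h).first
          exact ⟨c₁, h1, fun _ => h2⟩
        · exact ⟨1, one_pos, fun h' => (h h').elim⟩
      choose c₁ hc₁ hc₁' using hfirst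
      have hθq : θ (q + 1) < θ q := hanti (by omega)
      have e1 : ∀ j : ι, ∀ᶠ t : ℝ in atTop,
          (C / c₁ j + C / θ q) * exp (-(t * (r + θ q))) < 1 / 2 * exp (-(t * (r + θ (q + 1)))) :=
        fun j => exp_dom (by linarith) _ (by norm_num)
      have e2 : ∀ᶠ t : ℝ in atTop,
          (C / θ q) * exp (-(t * (r + θ q))) < c / 2 * exp (-(t * (r + θ (q + 1)))) :=
        exp_dom (by linarith) _ (by linarith)
      have e3 : ∀ p ∈ 𝓖 J' (θ q), ∀ᶠ t : ℝ in atTop,
          1 * exp (-(t * (r + G p.1))) < min (1 / 2) (c / 2) * exp (-(t * (r + θ (q + 1)))) := by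
        intro p hp
        apply exp_dom
        · have := (hθ q).2 J' hJ' p hp
          linarith
        · exact lt_min (by norm_num) (by linarith)
      have e3' : ∀ᶠ t : ℝ in atTop, ∀ p ∈ 𝓖 J' (θ q),
          1 * exp (-(t * (r + G p.1))) < min (1 / 2) (c / 2) * exp (-(t * (r + θ (q + 1)))) :=
        (Set.Finite.eventually_all hRJ'.fin).2 e3
      filter_upwards [hRJ'.round, eventually_all.2 e1, e2, e3', eventually_gt_atTop (0 : ℝ)]
        with t hround he1 he2 he3 ht x hx hxκ hxω hxS p hp hmax j hj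
      have hpF : p ∈ F := hsubF J' hJ' p hp
      have hroot_le : V (root J' a' r) t x ≤ V p t x := by
        rw [hrootV J' hJ'sub.subset]
        exact hmax _ (Set.mem_insert _ _)
      by_cases hjJ' : j ∈ J'
      · exact hround x hx (fun i hi => hxκ i (hJ'sub.subset hi)) p hp
          (fun q hq => hmax q (hsubF J' hJ' q hq)) hroot_le j hjJ'
      · -- `j ∈ J \ J'`
        have hpj : p.1 j = r := by
          rw [hRJ'.off p hp j hjJ', honJ j hj]
        have hVp := V_eq J' a' p (hRJ'.off p hp) r t x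
        have hβ := hbC p hp t ht.le
        have hsumge : θ q * ∑ i ∈ J', x i ≤ ∑ i ∈ J', (p.1 i - r) * x i := by
          rw [Finset.mul_sum]
          apply Finset.sum_le_sum
          intro i hi
          have := hRJ'.up p hp i hi
          exact mul_le_mul_of_nonneg_right (by linarith) (hx i).le
        have hS'nn : 0 ≤ ∑ i ∈ J', x i := Finset.sum_nonneg fun i _ => (hx i).le
        have hS' : ∑ i ∈ J', x i ≤ C / θ q * exp (-(t * (r + θ q))) := by
          rw [div_mul_eq_mul_div, le_div_iff₀ (hθpos q)]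
          linarith
        have hVle : V p t x - V (root J' a' r) t x ≤ C * exp (-(t * (r + θ q))) := by
          have : 0 ≤ θ q * ∑ i ∈ J', x i := mul_nonneg (hθpos q).le hS'nn
          linarith
        have hcard : (insert j J').card = q + 1 := by
          rw [Finset.card_insert_of_notMem hjJ']
        have hsumins : ∑ i ∈ insert j J', x i = x j + ∑ i ∈ J', x i :=
          Finset.sum_insert hjJ'
        have hinsub : insert j J' ⊆ J := by
          intro i hi
          rcases Finset.mem_insert.1 hi with rfl | hi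
          · exact hj
          · exact hJ'sub.subset hi
        have hlow : min (1 / 2) (c / 2) * exp (-(t * (r + θ (q + 1)))) ≤ x j := by
          have hexp := Real.exp_pos (-(t * (r + θ (q + 1))))
          by_cases hins : insert j J' = J
          · have hq1 : J.card = q + 1 := by rw [← hins, hcard]
            rw [hq1, ← hins, hsumins] at hxS
            have h1 : min (1 / 2) (c / 2) * exp (-(t * (r + θ (q + 1)))) ≤
                (c / 2) * exp (-(t * (r + θ (q + 1)))) :=
              mul_le_mul_of_nonneg_right (min_le_right _ _) hexp.le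
            linarith
          · have hinT : insert j J' ∈ T := by
              rw [hTmem]
              exact ⟨lt_of_le_of_ne hinsub hins, Finset.insert_nonempty _ _⟩
            have h1 := hmax _ (hsubF _ hinT _ (hc₁' j hinT))
            rw [V_setOn, hcard, hrootV _ hinsub, ← hrootV J' hJ'sub.subset, hsumins] at h1
            have h2 : c₁ j * exp (-(t * (r + θ (q + 1)))) - c₁ j * (x j + ∑ i ∈ J', x i)
                ≤ C * exp (-(t * (r + θ q))) := by linarith
            have h3 : exp (-(t * (r + θ (q + 1)))) - (x j + ∑ i ∈ J', x i)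
                ≤ C / c₁ j * exp (-(t * (r + θ q))) := by
              rw [div_mul_eq_mul_div, le_div_iff₀ (hc₁ j)]
              linarith
            have h4 := he1 j
            have h5 : min (1 / 2) (c / 2) * exp (-(t * (r + θ (q + 1)))) ≤
                (1 / 2) * exp (-(t * (r + θ (q + 1)))) :=
              mul_le_mul_of_nonneg_right (min_le_left _ _) hexp.le
            have h6 : (C / c₁ j + C / θ q) * exp (-(t * (r + θ q))) =
              C / c₁ j * exp (-(t * (r + θ q))) + C / θ q * exp (-(t * (r + θ q))) := by ring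
            linarith
        unfold Near
        rw [hpj]
        constructor
        · have := he3 p hp
          rw [one_mul] at this
          exact this.trans_le hlow
        · refine (hxω j hj).trans_lt ?_
          apply Real.exp_lt_exp.2
          have := hωF p hpF
          nlinarith
    -- root case
    have hE0 : ∀ᶠ t : ℝ in atTop, ∀ x : ι → ℝ, (∀ j, 0 < x j) →
        (∀ j ∈ J, x j ≤ exp (-(t * (r - ω)))) →
        c * exp (-(t * (r + θ J.card))) ≤ ∑ j ∈ J, x j →
        (∀ q ∈ F, V q t x ≤ V (root J a r) t x) →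
        ∀ j ∈ J, Near G t x (root J a r) j := by
      have hθ1 : θ 1 < G a' := by
        have := hanti (show 0 < 1 by norm_num)
        rw [hθ0] at this
        exact this
      have e1 : ∀ᶠ t : ℝ in atTop,
          1 * exp (-(t * (r + G a'))) < c * exp (-(t * (r + θ 1))) :=
        exp_dom (by linarith) _ hc
      filter_upwards [e1, eventually_gt_atTop (0 : ℝ)] with t he1 ht x hx hxω hxS hmax j hj
      have hrj : (root J a r).1 j = r := by simp [root, setOn, hj]
      have hrG : G (root J a r).1 = G a' := rfl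
      have hωr := hωF _ (Set.mem_insert (root J a r) (⋃ J' ∈ T, 𝓖 J' (θ J'.card)))
      unfold Near
      rw [hrj, hrG]
      constructor
      · by_cases hJj : ({j} : Finset ι) = J
        · have hc1 : J.card = 1 := by rw [← hJj]; simp
          rw [hc1, ← hJj, Finset.sum_singleton] at hxS
          linarith
        · have hinT : ({j} : Finset ι) ∈ T := by
            rw [hTmem]
            exact ⟨lt_of_le_of_ne (Finset.singleton_subset_iff.2 hj) hJj, Finset.singleton_nonempty _⟩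
          obtain ⟨c₁, hc₁, hc₁'⟩ := (hR _ hinT).first
          have h1 := hmax _ (hsubF _ hinT _ hc₁')
          rw [V_setOn, hrootV _ (Finset.singleton_subset_iff.2 hj), Finset.sum_singleton,
            Finset.card_singleton] at h1
          have h2 : c₁ * exp (-(t * (r + θ 1))) ≤ c₁ * x j := by linarith
          have h3 : exp (-(t * (r + θ 1))) ≤ x j := le_of_mul_le_mul_left h2 hc₁
          refine lt_of_lt_of_le ?_ h3
          apply Real.exp_lt_exp.2
          nlinarith
      · refine (hxω j hj).trans_lt ?_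
        apply Real.exp_lt_exp.2
        rw [hrG] at hωr
        nlinarith
    have hE' := (Finset.eventually_all T).2 hE
    filter_upwards [hE', hE0] with t h1 h2 x hx hxκ hxω hxS p hp hmax j hj
    rcases hmemF p hp with rfl | ⟨J', hJ', hp'⟩
    · exact h2 x hx hxω hxS hmax j hj
    · exact h1 J' hJ' x hx hxκ hxω hxS p hp' hmax j hj

/-- Main existence theorem for node families. -/
theorem exists_node (G : (ι → ℝ) → ℝ) (hG : ∀ a, 0 < G a) (κ : ℝ) (J : Finset ι)
    (hJ : J.Nonempty) (a : ι → ℝ) (r : ℝ) :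
    ∃ (θ ω : ℝ) (F : Set (Aff ι)), 0 < θ ∧ 0 < ω ∧ IsNode G κ J a r θ ω F := by
  induction J using Finset.strongInduction generalizing a r with
  | H J ih =>
    apply node_of_raise G hG κ J hJ
    intro J' hJ' hne a s τ hs
    exact raise_of_node G hG κ J' (fun a r => ih J' hJ' hne a r) a s τ hs

end Crest.Agent.R092.Rnd
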