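import Mathlib
import Crest.Agent.R092.Interface
import Crest.Agent.R092.RndTree

/-!
Part 1 of result 92 (helper430): assembly of the polytope family.
-/

set_option autoImplicit false

namespace Crest.Agent.R092.Rnd
open Filter Finset Real

/-- tolerance function -/
theorem exists_gap (d Q : ℕ) : ∃ G : (Fin d → ℝ) → ℝ, (∀ a, 0 < G a) ∧
    ∀ (a w : Fin d → ℝ), (∀ j, |w j - a j| ≤ G a) →
      ∀ v : Fin d → ℤ, (∀ j, |v j| ≤ (Q : ℤ)) → 0 < ∑ j, (-(a j)) * (v j : ℝ) →
        G a ≤ ∑ j, (-(w j)) * (v j : ℝ) := by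
  have key : ∀ a : Fin d → ℝ, ∃ g : ℝ, 0 < g ∧ ∀ w : Fin d → ℝ, (∀ j, |w j - a j| ≤ g) →
      ∀ v : Fin d → ℤ, (∀ j, |v j| ≤ (Q : ℤ)) → 0 < ∑ j, (-(a j)) * (v j : ℝ) →
        g ≤ ∑ j, (-(w j)) * (v j : ℝ) := by
    intro a
    classical
    set S : Set (Fin d → ℤ) := {v | ∀ j, |v j| ≤ (Q : ℤ)} with hS
    have hSfin : S.Finite := by
      have : S = Set.pi Set.univ (fun _ : Fin d => Set.Icc (-(Q : ℤ)) (Q : ℤ)) := by
        ext v
        simp only [hS, Set.mem_ofPred_eq, Set.mem_pi, Set.mem_univ, true_imp_iff, Set.mem_Icc,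
          abs_le]
      rw [this]
      exact Set.Finite.pi fun _ => Set.finite_Icc (-(Q : ℤ)) (Q : ℤ)
    set f : (Fin d → ℤ) → ℝ := fun v =>
      if 0 < ∑ j, (-(a j)) * (v j : ℝ) then
        (∑ j, (-(a j)) * (v j : ℝ)) / (1 + ∑ j, |(v j : ℝ)|) else 1 with hf
    have hden : ∀ v : Fin d → ℤ, 0 < 1 + ∑ j, |(v j : ℝ)| := by
      intro v
      have : 0 ≤ ∑ j, |(v j : ℝ)| := Finset.sum_nonneg fun j _ => abs_nonneg _
      linarith
    have hfpos : ∀ v, 0 < f v := by
      intro v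
      simp only [hf]
      split_ifs with h
      · exact div_pos h (hden v)
      · exact one_pos
    obtain ⟨g, hg, hgS⟩ := exists_pos_lower f hfpos S hSfin
    refine ⟨g, hg, ?_⟩
    intro w hw v hv hpos
    have h1 := hgS v hv
    simp only [hf, if_pos hpos] at h1
    rw [lt_div_iff₀ (hden v)] at h1
    have h2 : |∑ j, (w j - a j) * (v j : ℝ)| ≤ g * ∑ j, |(v j : ℝ)| := by
      refine (Finset.abs_sum_le_sum_abs _ _).trans ?_
      rw [Finset.mul_sum]
      apply Finset.sum_le_sum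
      intro j _
      rw [abs_mul]
      exact mul_le_mul_of_nonneg_right (hw j) (abs_nonneg _)
    have h3 : ∑ j, (-(w j)) * (v j : ℝ) =
        ∑ j, (-(a j)) * (v j : ℝ) - ∑ j, (w j - a j) * (v j : ℝ) := by
      rw [← Finset.sum_sub_distrib]
      apply Finset.sum_congr rfl
      intro j _; ring
    rw [h3]
    have h4 := (abs_le.1 h2).2
    nlinarith
  choose G hG hG' using key
  exact ⟨G, hG, hG'⟩

/-- From nearness to the compatibility estimate. -/
theorem near_compat {d Q : ℕ} (G : (Fin d → ℝ) → ℝ)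
    (hG' : ∀ (a w : Fin d → ℝ), (∀ j, |w j - a j| ≤ G a) →
      ∀ v : Fin d → ℤ, (∀ j, |v j| ≤ (Q : ℤ)) → 0 < ∑ j, (-(a j)) * (v j : ℝ) →
        G a ≤ ∑ j, (-(w j)) * (v j : ℝ))
    (α : Fin d → ℝ) (t : ℝ) (ht : 0 < t) (x : Fin d → ℝ) (hx : ∀ j, 0 < x j)
    (hlow : ∀ j, exp (-(t * (α j + G α))) ≤ x j)
    (hup : ∀ j, x j ≤ exp (-(t * (α j - G α)))) (L : ℝ) (hL : L ≤ t * G α) :
    Compat Q L (fun j => -(α j)) x := by
  intro v hv hpos
  have h1 : ∀ j, |(-(Real.log (x j)) / t) - α j| ≤ G α := by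
    intro j
    have h2 := (Real.log_le_log (Real.exp_pos _) (hlow j))
    have h3 := (Real.log_le_log (hx j) (hup j))
    rw [Real.log_exp] at h2 h3
    rw [abs_le]
    constructor
    · rw [neg_le_sub_iff_le_add, ← sub_le_iff_le_add, le_div_iff₀ ht]
      nlinarith
    · rw [sub_le_iff_le_add, div_le_iff₀ ht]
      nlinarith
  have h2 := hG' α _ h1 v hv hpos
  have h3 : ∑ j, (-(-(Real.log (x j)) / t)) * (v j : ℝ) = (∑ j, (v j : ℝ) * Real.log (x j)) / t := by
    rw [Finset.sum_div]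
    apply Finset.sum_congr rfl
    intro j _
    field_simp
  rw [h3, le_div_iff₀ ht] at h2
  linarith

/-- eventually-statement transported along `L ↦ c * L` -/
theorem ev_scale {P : ℝ → Prop} (h : ∀ᶠ t in atTop, P t) (c : ℝ) (hc : 0 < c) :
    ∀ᶠ L : ℝ in atTop, P (c * L) :=
  (tendsto_id.const_mul_atTop hc).eventually h

/-- Data of the families: inner families `F I`, outer family. -/
structure Scales (d : ℕ) (G : (Fin d → ℝ) → ℝ) where
  β : ℕ → ℝ
  θ : Finset (Fin d) → ℝ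
  ω : Finset (Fin d) → ℝ
  F : Finset (Fin d) → Set (Aff (Fin d))
  θ' : ℝ
  ω' : ℝ
  F' : Set (Aff (Fin d))
  β0 : β 0 = 1
  βpos : ∀ k, 0 < β k
  βanti : StrictAnti β
  βgap : ∀ I : Finset (Fin d), I.Nonempty → ∀ p ∈ F I, β (I.card + 1) < β I.card * G p.1
  θpos : ∀ I : Finset (Fin d), I.Nonempty → 0 < θ I
  ωpos : ∀ I : Finset (Fin d), I.Nonempty → 0 < ω I
  node : ∀ I : Finset (Fin d), I.Nonempty → IsNode G (1 / β I.card) I 0 1 (θ I) (ω I) (F I)
  θ'pos : 0 < θ'
  ω'pos : 0 < ω'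
  node' : IsNode G (1 / β (d + 1)) Finset.univ 0 (-1) θ' ω' F'

theorem exists_scales (d : ℕ) (hd : 1 ≤ d) (G : (Fin d → ℝ) → ℝ) (hG : ∀ a, 0 < G a) :
    Nonempty (Scales d G) := by
  classical
  have hnode : ∀ (I : Finset (Fin d)) (β : ℝ), ∃ (θ ω : ℝ) (F : Set (Aff (Fin d))),
      I.Nonempty → (0 < θ ∧ 0 < ω ∧ IsNode G (1 / β) I 0 1 θ ω F) := by
    intro I β
    by_cases hI : I.Nonempty
    · obtain ⟨θ, ω, F, h⟩ := exists_node G hG (1 / β) I hI 0 1
      exact ⟨θ, ω, F, fun _ => h⟩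
    · exact ⟨0, 0, ∅, fun h => (hI h).elim⟩
  choose θ ω F hF using hnode
  obtain ⟨β, hβ0, hβpos, hβ⟩ := exists_seq
    (fun k b c => c < b ∧ ∀ I : Finset (Fin d), I.Nonempty → ∀ p ∈ F I b, c < b * G p.1) (by
      intro k b hb
      have hfin : (⋃ I ∈ (Finset.univ : Finset (Finset (Fin d))).filter (fun I => I.Nonempty),
          F I b).Finite := by
        apply Set.Finite.biUnion (Finset.finite_toSet _)
        intro I hI
        simp only [Finset.coe_filter, Finset.mem_univ, true_and, Set.mem_ofPred_eq] at hI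
        exact (hF I b hI).2.2.fin
      obtain ⟨c, hc, hc'⟩ := exists_pos_lower (fun p : Aff (Fin d) => b * G p.1)
        (fun p => mul_pos hb (hG _)) _ hfin
      refine ⟨min c (b / 2), lt_min hc (by linarith), ?_, ?_⟩
      · exact (min_le_right _ _).trans_lt (by linarith)
      · intro I hI p hp
        refine (min_le_left _ _).trans_lt (hc' p ?_)
        simp only [Set.mem_iUnion, Finset.mem_filter, Finset.mem_univ, true_and]
        exact ⟨I, hI, hp⟩) 1 one_pos
  have hne : (Finset.univ : Finset (Fin d)).Nonempty := ⟨⟨0, hd⟩, Finset.mem_univ _⟩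
  obtain ⟨θ', ω', F', hθ', hω', hF'⟩ := exists_node G hG (1 / β (d + 1)) Finset.univ hne 0 (-1)
  exact ⟨{ β := β, θ := fun I => θ I (β I.card), ω := fun I => ω I (β I.card),
           F := fun I => F I (β I.card), θ' := θ', ω' := ω', F' := F', β0 := hβ0, βpos := hβpos,
           βanti := strictAnti_nat_of_succ_lt fun n => (hβ n).1,
           βgap := fun I hI p hp => (hβ I.card).2 I hI p hp,
           θpos := fun I hI => (hF I _ hI).1,
           ωpos := fun I hI => (hF I _ hI).2.1,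
           node := fun I hI => (hF I _ hI).2.2,
           θ'pos := hθ', ω'pos := hω', node' := hF' }⟩

section
variable {d : ℕ} {G : (Fin d → ℝ) → ℝ} (S : Scales d G)

/-- All constraints at time `t`. -/
def Scales.Ok (t : ℝ) (x : Fin d → ℝ) : Prop :=
  (∀ I : Finset (Fin d), I.Nonempty → ∀ p ∈ S.F I,
    V p (S.β I.card * t) x ≤ -exp (-(S.β I.card * t))) ∧
  (∀ p ∈ S.F', V p (S.β (d + 1) * t) x ≤ exp (S.β (d + 1) * t))

theorem V_root_one (I : Finset (Fin d)) (t : ℝ) (x : Fin d → ℝ) (r : ℝ) :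
    V (root I 0 r) t x = - (r * ∑ j ∈ I, x j) := by
  rw [V_root]; simp

theorem Scales.sum_ge {t : ℝ} {x : Fin d → ℝ} (h : S.Ok t x) (I : Finset (Fin d))
    (hI : I.Nonempty) : exp (-(S.β I.card * t)) ≤ ∑ j ∈ I, x j := by
  have := h.1 I hI _ (S.node I hI).root_mem
  rw [V_root_one] at this
  linarith

theorem Scales.lower {t : ℝ} (ht : 0 ≤ t) {x : Fin d → ℝ} (h : S.Ok t x) (j : Fin d) :
    exp (-t) ≤ x j := by
  have h1 := S.sum_ge h {j} (Finset.singleton_nonempty j)
  rw [Finset.sum_singleton, Finset.card_singleton] at h1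
  refine le_trans ?_ h1
  apply Real.exp_le_exp.2
  have h2 : S.β 1 < S.β 0 := S.βanti (by norm_num)
  rw [S.β0] at h2
  nlinarith [S.βpos 1]

theorem Scales.pos {t : ℝ} (ht : 0 ≤ t) {x : Fin d → ℝ} (h : S.Ok t x) (j : Fin d) :
    0 < x j := (Real.exp_pos _).trans_le (S.lower ht h j)

theorem Scales.sum_le {t : ℝ} {x : Fin d → ℝ} (h : S.Ok t x) :
    ∑ j, x j ≤ exp (S.β (d + 1) * t) := by
  have := h.2 _ S.node'.root_mem
  rw [V_root_one] at this
  linarith

theorem Scales.upper {t : ℝ} (ht : 0 ≤ t) {x : Fin d → ℝ} (h : S.Ok t x) (j : Fin d) :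
    x j ≤ exp (S.β (d + 1) * t) :=
  (Finset.single_le_sum (f := x) (fun i _ => (S.pos ht h i).le) (Finset.mem_univ j)).trans
    (S.sum_le h)

/-- Exhaustion. -/
theorem Scales.eventually_ok (x : Fin d → ℝ) (hx : ∀ j, 0 < x j) :
    ∀ᶠ t in atTop, S.Ok t x := by
  have h1 : ∀ I : Finset (Fin d), ∀ᶠ t in atTop, I.Nonempty → ∀ p ∈ S.F I,
      V p (S.β I.card * t) x ≤ -exp (-(S.β I.card * t)) := by
    intro I
    by_cases hI : I.Nonempty
    · have hN := S.node I hI
      obtain ⟨C, δ, hC, hδ, hb⟩ := hN.bound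
      have hθ := S.θpos I hI
      have hsum : 0 < ∑ j ∈ I, x j := Finset.sum_pos (fun j _ => hx j) hI
      have e0 : ∀ᶠ t : ℝ in atTop, (1 + C) * exp (-(t * 1)) < (∑ j ∈ I, x j) * exp (-(t * 0)) :=
        exp_dom (by norm_num) _ hsum
      have e1 := ev_scale e0 (S.β I.card) (S.βpos _)
      filter_upwards [e1, eventually_ge_atTop (0 : ℝ)] with t he1 ht _ p hp
      rw [V_eq I 0 p (hN.off p hp) 1, V_root_one]
      have ht' : 0 ≤ S.β I.card * t := mul_nonneg (S.βpos _).le ht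
      have h2 := hb p hp _ ht'
      have h3 : 0 ≤ ∑ j ∈ I, (p.1 j - 1) * x j := by
        apply Finset.sum_nonneg
        intro j hj
        exact mul_nonneg (by linarith [hN.up p hp j hj]) (hx j).le
      have h4 : exp (-(S.β I.card * t * (1 + S.θ I + δ))) ≤ exp (-(S.β I.card * t * 1)) := by
        apply Real.exp_le_exp.2
        nlinarith
      simp only [mul_zero, neg_zero, Real.exp_zero, mul_one] at he1 h4
      nlinarith
    · exact Eventually.of_forall fun t h => (hI h).elim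
  have h2 : ∀ᶠ t in atTop, ∀ p ∈ S.F', V p (S.β (d + 1) * t) x ≤ exp (S.β (d + 1) * t) := by
    have hN := S.node'
    obtain ⟨C, δ, hC, hδ, hb⟩ := hN.bound
    have hθ := S.θ'pos
    have e0 : ∀ᶠ t : ℝ in atTop, (C) * exp (-(t * (-1 + S.θ' + δ))) < (1/2) * exp (-(t * (-1))) :=
      exp_dom (by linarith) _ (by norm_num)
    have e0' : ∀ᶠ t : ℝ in atTop, (∑ j, x j) * exp (-(t * 0)) < (1/2) * exp (-(t * (-1))) :=
      exp_dom (by norm_num) _ (by norm_num)
    have e1 := ev_scale e0 (S.β (d + 1)) (S.βpos _)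
    have e2 := ev_scale e0' (S.β (d + 1)) (S.βpos _)
    filter_upwards [e1, e2, eventually_ge_atTop (0 : ℝ)] with t he1 he2 ht p hp
    rw [V_eq Finset.univ 0 p (hN.off p hp) (-1), V_root_one]
    have ht' : 0 ≤ S.β (d + 1) * t := mul_nonneg (S.βpos _).le ht
    have h2 := hb p hp _ ht'
    have h3 : 0 ≤ ∑ j, (p.1 j - (-1)) * x j := by
      apply Finset.sum_nonneg
      intro j hj
      exact mul_nonneg (by linarith [hN.up p hp j hj]) (hx j).le
    simp only [mul_zero, neg_zero, Real.exp_zero, mul_one, mul_neg, neg_neg] at he1 he2 h2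
    linarith
  filter_upwards [eventually_all.2 h1, h2] with t h1 h2
  exact ⟨h1, h2⟩

/-- Compatibility on inner facets. -/
theorem Scales.inner_near (hG : ∀ a, 0 < G a) (I : Finset (Fin d)) (hI : I.Nonempty) :
    ∀ᶠ t in atTop, ∀ x, S.Ok t x → ∀ p ∈ S.F I,
      V p (S.β I.card * t) x = -exp (-(S.β I.card * t)) →
      ∀ j, exp (-(S.β I.card * t * (p.1 j + G p.1))) ≤ x j ∧
        x j ≤ exp (-(S.β I.card * t * (p.1 j - G p.1))) := by
  classical
  have hN := S.node I hI
  obtain ⟨C, δ, hC, hδ, hb⟩ := hN.bound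
  have hθ := S.θpos I hI
  have hω := S.ωpos I hI
  have hβI := S.βpos I.card
  -- round at scaled time
  have r1 := ev_scale (hN.round 1 one_pos) _ hβI
  have e0 : ∀ᶠ t : ℝ in atTop, (1 + C) * exp (-(t * 1)) < 1 * exp (-(t * (1 - S.ω I))) :=
    exp_dom (by linarith) _ one_pos
  have e1 := ev_scale e0 _ hβI
  -- dominance for `j ∉ I`
  have hβ1 : S.β (I.card + 1) < S.β I.card := S.βanti (by omega)
  have e2 : ∀ᶠ t : ℝ in atTop, (1 + C) * exp (-(t * S.β I.card)) <
      (1 / 2) * exp (-(t * S.β (I.card + 1))) := exp_dom hβ1 _ (by norm_num)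
  have e3 : ∀ p ∈ S.F I, ∀ᶠ t : ℝ in atTop, 1 * exp (-(t * (S.β I.card * G p.1))) <
      (1 / 2) * exp (-(t * S.β (I.card + 1))) := fun p hp =>
    exp_dom (S.βgap I hI p hp) _ (by norm_num)
  have e3' := (Set.Finite.eventually_all hN.fin).2 e3
  filter_upwards [r1, e1, e2, e3', eventually_gt_atTop (0 : ℝ)] with t hr1 he1 he2 he3 ht x hok p hp
    hact
  have hxpos : ∀ j, 0 < x j := S.pos ht.le hok
  have ht' : 0 < S.β I.card * t := mul_pos hβI ht
  have hmax : ∀ q ∈ S.F I, V q (S.β I.card * t) x ≤ V p (S.β I.card * t) x := by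
    intro q hq
    rw [hact]
    exact hok.1 I hI q hq
  have hsum_ge := S.sum_ge hok I hI
  -- upper bound on the sum
  have hsum_le : ∑ j ∈ I, x j ≤ (1 + C) * exp (-(S.β I.card * t * 1)) := by
    have h1 := V_eq I 0 p (hN.off p hp) 1 (S.β I.card * t) x
    rw [V_root_one, hact] at h1
    have h2 := hb p hp _ ht'.le
    have h3 : 0 ≤ ∑ j ∈ I, (p.1 j - 1) * x j := by
      apply Finset.sum_nonneg
      intro j hj
      exact mul_nonneg (by linarith [hN.up p hp j hj]) (hxpos j).le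
    have h4 : exp (-(S.β I.card * t * (1 + S.θ I + δ))) ≤ exp (-(S.β I.card * t * 1)) := by
      apply Real.exp_le_exp.2
      nlinarith
    simp only [mul_one] at h4 ⊢
    nlinarith
  have hκ : ∀ j ∈ I, exp (-(S.β I.card * t * (1 / S.β I.card))) ≤ x j := by
    intro j _
    have h1 : S.β I.card * t * (1 / S.β I.card) = t := by
      field_simp
    rw [h1]
    exact S.lower ht.le hok j
  have hω' : ∀ j ∈ I, x j ≤ exp (-(S.β I.card * t * (1 - S.ω I))) := by
    intro j hj
    have h2 : x j ≤ ∑ j ∈ I, x j :=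
      Finset.single_le_sum (f := x) (fun i _ => (hxpos i).le) hj
    linarith
  have hlow : 1 * exp (-(S.β I.card * t * (1 + S.θ I))) ≤ ∑ j ∈ I, x j := by
    rw [one_mul]
    refine le_trans ?_ hsum_ge
    apply Real.exp_le_exp.2
    nlinarith
  intro j
  by_cases hj : j ∈ I
  · have := hr1 x hxpos hκ hω' hlow p hp hmax j hj
    exact ⟨this.1.le, this.2.le⟩
  · have hpj : p.1 j = 0 := by
      rw [hN.off p hp j hj]; rfl
    rw [hpj]
    constructor
    · have h1 := S.sum_ge hok (insert j I) (Finset.insert_nonempty _ _)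
      rw [Finset.sum_insert hj, Finset.card_insert_of_notMem hj] at h1
      have h2 := he3 p hp
      have h3 : exp (-(S.β I.card * t * 1)) = exp (-(t * S.β I.card)) := by
        congr 1; ring
      rw [h3] at hsum_le
      have h4 : exp (-(S.β (I.card + 1) * t)) = exp (-(t * S.β (I.card + 1))) := by
        congr 1; ring
      rw [h4] at h1
      have h5 : exp (-(S.β I.card * t * (0 + G p.1))) = exp (-(t * (S.β I.card * G p.1))) := by
        congr 1; ring
      rw [h5]
      linarith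
    · refine (S.upper ht.le hok j).trans ?_
      apply Real.exp_le_exp.2
      have hcard : I.card + 1 ≤ d + 1 := by
        have := Finset.card_le_univ I
        simp at this
        omega
      have h1 : S.β (d + 1) ≤ S.β (I.card + 1) := S.βanti.antitone hcard
      have h2 := S.βgap I hI p hp
      have h3 : S.β (d + 1) ≤ S.β I.card * G p.1 := by linarith
      nlinarith

/-- Compatibility on outer facets. -/
theorem Scales.outer_near (hG : ∀ a, 0 < G a) :
    ∀ᶠ t in atTop, ∀ x, S.Ok t x → ∀ p ∈ S.F',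
      V p (S.β (d + 1) * t) x = exp (S.β (d + 1) * t) →
      ∀ j, exp (-(S.β (d + 1) * t * (p.1 j + G p.1))) ≤ x j ∧
        x j ≤ exp (-(S.β (d + 1) * t * (p.1 j - G p.1))) := by
  classical
  have hN := S.node'
  obtain ⟨C, δ, hC, hδ, hb⟩ := hN.bound
  have hθ := S.θ'pos
  have hω := S.ω'pos
  have hβ := S.βpos (d + 1)
  have r1 := ev_scale (hN.round (1 / 2) (by norm_num)) _ hβ
  have e0 : ∀ᶠ t : ℝ in atTop, C * exp (-(t * (-1 + S.θ' + δ))) < (1 / 2) * exp (-(t * (-1))) :=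
    exp_dom (by linarith) _ (by norm_num)
  have e1 := ev_scale e0 _ hβ
  filter_upwards [r1, e1, eventually_gt_atTop (0 : ℝ)] with t hr1 he1 ht x hok p hp hact
  have hxpos : ∀ j, 0 < x j := S.pos ht.le hok
  have ht' : 0 < S.β (d + 1) * t := mul_pos hβ ht
  have hmax : ∀ q ∈ S.F', V q (S.β (d + 1) * t) x ≤ V p (S.β (d + 1) * t) x := by
    intro q hq
    rw [hact]
    exact hok.2 q hq
  have hexp1 : exp (-(S.β (d + 1) * t * (-1))) = exp (S.β (d + 1) * t) := by
    congr 1; ring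
  rw [hexp1] at he1
  have hsum_ge : 1 / 2 * exp (S.β (d + 1) * t) ≤ ∑ j, x j := by
    have h1 := V_eq Finset.univ 0 p (hN.off p hp) (-1) (S.β (d + 1) * t) x
    rw [V_root_one, hact] at h1
    have h2 := hb p hp _ ht'.le
    have h3 : 0 ≤ ∑ j, (p.1 j - (-1)) * x j := by
      apply Finset.sum_nonneg
      intro j hj
      exact mul_nonneg (by linarith [hN.up p hp j hj]) (hxpos j).le
    linarith
  have hκ : ∀ j ∈ (Finset.univ : Finset (Fin d)),
      exp (-(S.β (d + 1) * t * (1 / S.β (d + 1)))) ≤ x j := by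
    intro j _
    have h1 : S.β (d + 1) * t * (1 / S.β (d + 1)) = t := by
      field_simp
    rw [h1]
    exact S.lower ht.le hok j
  have hω' : ∀ j ∈ (Finset.univ : Finset (Fin d)),
      x j ≤ exp (-(S.β (d + 1) * t * (-1 - S.ω'))) := by
    intro j hj
    refine (S.upper ht.le hok j).trans ?_
    apply Real.exp_le_exp.2
    nlinarith
  have hlow : 1 / 2 * exp (-(S.β (d + 1) * t * (-1 + S.θ'))) ≤ ∑ j, x j := by
    refine le_trans ?_ hsum_ge
    apply mul_le_mul_of_nonneg_left _ (by norm_num)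
    apply Real.exp_le_exp.2
    nlinarith
  intro j
  have := hr1 x hxpos hκ hω' hlow p hp hmax j (Finset.mem_univ j)
  exact ⟨this.1.le, this.2.le⟩

end

end Crest.Agent.R092.Rnd
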