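import Mathlib
import Crest.Agent.R092.Interface
import Crest.Agent.R092.RndPoly

/-!
Part 1 of result 92 (helper430): the proposition `Part1`.
-/

set_option autoImplicit false

namespace Crest.Agent.R092
open Filter Finset Real Rnd

theorem part1 : Part1 := by
  classical
  intro d hd Q
  obtain ⟨G, hG, hG'⟩ := exists_gap d Q
  obtain ⟨S⟩ := exists_scales d hd G hG
  -- constant `Λ`
  have hfin1 : ∀ I : Finset (Fin d), I.Nonempty → (S.F I).Finite := fun I hI => (S.node I hI).fin
  obtain ⟨c₀, hc₀, hc₀'⟩ := exists_pos_lower (fun q : ℕ × Aff (Fin d) => S.β q.1 * G q.2.1)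
    (fun q => mul_pos (S.βpos _) (hG _))
    ((⋃ I ∈ (Finset.univ : Finset (Finset (Fin d))).filter (fun I => I.Nonempty),
        (fun p => (I.card, p)) '' S.F I) ∪ (fun p => (d + 1, p)) '' S.F') (by
      apply Set.Finite.union
      · apply Set.Finite.biUnion (Finset.finite_toSet _)
        intro I hI
        simp only [Finset.coe_filter, Finset.mem_univ, true_and, Set.mem_ofPred_eq] at hI
        exact (hfin1 I hI).image _
      · exact S.node'.fin.image _)
  set Λ : ℝ := 1 / c₀ with hΛ
  have hΛpos : 0 < Λ := by positivity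
  -- index type
  let T1 : Set (Finset (Fin d) × Aff (Fin d)) := {q | q.1.Nonempty ∧ q.2 ∈ S.F q.1}
  have hT1 : T1.Finite := by
    have : T1 = ⋃ I ∈ (Finset.univ : Finset (Finset (Fin d))).filter (fun I => I.Nonempty),
        (fun p => (I, p)) '' S.F I := by
      ext ⟨I, p⟩
      simp only [T1, Set.mem_ofPred_eq, Finset.mem_filter, Finset.mem_univ, true_and,
        Set.mem_iUnion, Set.mem_image, Prod.mk.injEq]
      constructor
      · rintro ⟨h1, h2⟩
        exact ⟨I, h1, p, h2, rfl, rfl⟩
      · rintro ⟨I', h1, p', h2, rfl, rfl⟩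
        exact ⟨h1, h2⟩
    rw [this]
    apply Set.Finite.biUnion (Finset.finite_toSet _)
    intro I hI
    simp only [Finset.coe_filter, Finset.mem_univ, true_and, Set.mem_ofPred_eq] at hI
    exact (hfin1 I hI).image _
  have hF'fin : S.F'.Finite := S.node'.fin
  haveI : Fintype T1 := hT1.fintype
  haveI : Fintype S.F' := hF'fin.fintype
  let a : T1 ⊕ S.F' → Fin d → ℝ := fun i => match i with
    | Sum.inl q => fun j => -(q.1.2.1 j)
    | Sum.inr p => fun j => -(p.1.1 j)
  let b : T1 ⊕ S.F' → ℝ → ℝ := fun i => match i with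
    | Sum.inl q => fun L => -exp (-(S.β q.1.1.card * (Λ * L))) - q.1.2.2 (S.β q.1.1.card * (Λ * L))
    | Sum.inr p => fun L => exp (S.β (d + 1) * (Λ * L)) - p.1.2 (S.β (d + 1) * (Λ * L))
  have hsat : ∀ L x, Sat a b L x ↔ S.Ok (Λ * L) x := by
    intro L x
    unfold Sat Scales.Ok
    constructor
    · intro h
      refine ⟨fun I hI p hp => ?_, fun p hp => ?_⟩
      · have := h (Sum.inl ⟨(I, p), hI, hp⟩)
        simp only [a, b, neg_mul, Finset.sum_neg_distrib] at this
        unfold V
        linarith
      · have := h (Sum.inr ⟨p, hp⟩)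
        simp only [a, b, neg_mul, Finset.sum_neg_distrib] at this
        unfold V
        linarith
    · rintro ⟨h1, h2⟩ i
      rcases i with ⟨⟨I, p⟩, hI, hp⟩ | ⟨p, hp⟩
      · have := h1 I hI p hp
        simp only [a, b, neg_mul, Finset.sum_neg_distrib]
        unfold V at this
        linarith
      · have := h2 p hp
        simp only [a, b, neg_mul, Finset.sum_neg_distrib]
        unfold V at this
        linarith
  have hscale : ∀ {P : ℝ → Prop}, (∀ᶠ t in atTop, P t) → ∀ᶠ L : ℝ in atTop, P (Λ * L) :=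
    fun h => ev_scale h Λ hΛpos
  refine ⟨T1 ⊕ S.F', inferInstance, a, b, Λ, ?_, ?_, ?_, ?_⟩
  · -- smooth
    rintro (⟨⟨I, p⟩, hI, hp⟩ | ⟨p, hp⟩)
    · have h1 := (S.node I hI).smooth p hp
      simp only [b]
      fun_prop
    · have h1 := S.node'.smooth p hp
      simp only [b]
      fun_prop
  · intro x hx
    filter_upwards [hscale (S.eventually_ok x hx)] with L hL
    exact (hsat L x).2 hL
  · filter_upwards [eventually_ge_atTop (0 : ℝ)] with L hL x hx j
    have hok := (hsat L x).1 hx
    have ht : 0 ≤ Λ * L := mul_nonneg hΛpos.le hL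
    refine ⟨S.lower ht hok j, (S.upper ht hok j).trans ?_⟩
    apply Real.exp_le_exp.2
    have h1 : S.β (d + 1) ≤ S.β 0 := S.βanti.antitone (by omega)
    rw [S.β0] at h1
    nlinarith
  · have hin : ∀ I : Finset (Fin d), ∀ᶠ t in atTop, I.Nonempty → ∀ x, S.Ok t x → ∀ p ∈ S.F I,
        V p (S.β I.card * t) x = -exp (-(S.β I.card * t)) →
        ∀ j, exp (-(S.β I.card * t * (p.1 j + G p.1))) ≤ x j ∧
          x j ≤ exp (-(S.β I.card * t * (p.1 j - G p.1))) := by
      intro I
      by_cases hI : I.Nonempty
      · filter_upwards [S.inner_near hG I hI] with t ht _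
        exact ht
      · exact Eventually.of_forall fun t h => (hI h).elim
    filter_upwards [hscale (eventually_all.2 hin), hscale (S.outer_near hG),
      eventually_gt_atTop (0 : ℝ)] with L h1 h2 hL x hx i hact
    have hok := (hsat L x).1 hx
    have ht : 0 < Λ * L := mul_pos hΛpos hL
    have hxpos : ∀ j, 0 < x j := S.pos ht.le hok
    rcases i with ⟨⟨I, p⟩, hI, hp⟩ | ⟨p, hp⟩
    · simp only [a, b, neg_mul, Finset.sum_neg_distrib] at hact
      have hV : V p (S.β I.card * (Λ * L)) x = -exp (-(S.β I.card * (Λ * L))) := by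
        unfold V
        linarith
      have h3 := h1 I hI x hok p hp hV
      have h4 : c₀ < S.β I.card * G p.1 := by
        apply hc₀' (I.card, p)
        left
        simp only [Set.mem_iUnion, Finset.mem_filter, Finset.mem_univ, true_and]
        exact ⟨I, hI, p, hp, rfl⟩
      refine near_compat G hG' p.1 (S.β I.card * (Λ * L)) (mul_pos (S.βpos _) ht) x hxpos
        (fun j => (h3 j).1) (fun j => (h3 j).2) L ?_
      have h5 : S.β I.card * (Λ * L) * G p.1 = (S.β I.card * G p.1) * Λ * L := by ring
      rw [h5]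
      have h6 : 1 ≤ (S.β I.card * G p.1) * Λ := by
        rw [hΛ, mul_one_div, one_le_div hc₀]
        exact h4.le
      nlinarith
    · simp only [a, b, neg_mul, Finset.sum_neg_distrib] at hact
      have hV : V p (S.β (d + 1) * (Λ * L)) x = exp (S.β (d + 1) * (Λ * L)) := by
        unfold V
        linarith
      have h3 := h2 x hok p hp hV
      have h4 : c₀ < S.β (d + 1) * G p.1 := by
        apply hc₀' (d + 1, p)
        right
        exact ⟨p, hp, rfl⟩
      refine near_compat G hG' p.1 (S.β (d + 1) * (Λ * L)) (mul_pos (S.βpos _) ht) x hxpos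
        (fun j => (h3 j).1) (fun j => (h3 j).2) L ?_
      have h5 : S.β (d + 1) * (Λ * L) * G p.1 = (S.β (d + 1) * G p.1) * Λ * L := by ring
      rw [h5]
      have h6 : 1 ≤ (S.β (d + 1) * G p.1) * Λ := by
        rw [hΛ, mul_one_div, one_le_div hc₀]
        exact h4.le
      nlinarith

end Crest.Agent.R092
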