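import Mathlib
import Crest.Agent.R092.TreeStmt

/-!
Proof of the core lemma of Part 1 (result 92): one family of nested roundings.
-/

set_option autoImplicit false

namespace Crest.Agent.R092
open Filter

/-! ### Snapping -/

theorem exists_snap (Sp : ℝ → Prop) (τ : ℝ) (hτ : 0 < τ)
    (hsep : ∀ s s', Sp s → Sp s' → s ≠ s' → 2 * τ ≤ |s - s'|) :
    ∃ snap : ℝ → ℝ, Monotone snap ∧
      (∀ y, (Sp (snap y) ∧ |y - snap y| < τ) ∨
        (snap y = y ∧ ∀ s, Sp s → τ ≤ |y - s|)) ∧
      (∀ s, Sp s → snap s = s) := by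
  classical
  let snap : ℝ → ℝ := fun y => if h : ∃ s, Sp s ∧ |y - s| < τ then h.choose else y
  have hspec : ∀ y, (Sp (snap y) ∧ |y - snap y| < τ) ∨
        (snap y = y ∧ ∀ s, Sp s → τ ≤ |y - s|) := by
    intro y
    by_cases h : ∃ s, Sp s ∧ |y - s| < τ
    · left
      have : snap y = h.choose := by simp only [snap, dif_pos h]
      rw [this]
      exact h.choose_spec
    · right
      refine ⟨by simp only [snap, dif_neg h], ?_⟩
      intro s hs
      by_contra hlt
      exact h ⟨s, hs, not_le.mp hlt⟩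
  refine ⟨snap, ?_, hspec, ?_⟩
  · intro y y' hyy'
    rcases hspec y with ⟨h1, h2⟩ | ⟨h1, h2⟩
    · rcases hspec y' with ⟨h3, h4⟩ | ⟨h3, h4⟩
      · by_contra hlt
        push Not at hlt
        have := hsep _ _ h1 h3 (ne_of_gt hlt)
        rw [abs_of_pos (by linarith)] at this
        rw [abs_lt] at h2 h4
        linarith [h2.1, h2.2, h4.1, h4.2]
      · rw [h3]
        have := h4 _ h1
        by_contra hlt
        push Not at hlt
        rw [abs_lt] at h2
        rw [abs_of_neg (by linarith)] at this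
        linarith [h2.1, h2.2]
    · rcases hspec y' with ⟨h3, h4⟩ | ⟨h3, h4⟩
      · rw [h1]
        have := h2 _ h3
        by_contra hlt
        push Not at hlt
        rw [abs_lt] at h4
        rw [abs_of_pos (by linarith)] at this
        linarith [h4.1, h4.2]
      · rw [h1, h3]
        exact hyy'
  · intro s hs
    rcases hspec s with ⟨h1, h2⟩ | ⟨h1, h2⟩
    · by_contra hne
      have := hsep _ _ h1 hs hne
      rw [abs_sub_comm] at this
      linarith
    · exact h1

/-! ### Sequences -/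

theorem exists_up {s : ℕ → ℝ} (hs : Antitone s) {l : ℕ} (h : s l ≠ s 0) :
    ∃ m, m < l ∧ s l < s m ∧ s (m + 1) = s l := by
  classical
  have hex : ∃ j, s j = s l := ⟨l, rfl⟩
  have h1 := Nat.find_spec hex
  have h2 : Nat.find hex ≤ l := Nat.find_min' hex rfl
  have h3 : Nat.find hex ≠ 0 := by
    intro h0
    rw [h0] at h1
    exact h h1.symm
  obtain ⟨m, hm⟩ := Nat.exists_eq_succ_of_ne_zero h3
  refine ⟨m, by omega, ?_, ?_⟩
  · have h4 : s m ≠ s l := Nat.find_min hex (by omega)
    exact lt_of_le_of_ne (hs (by omega)) (Ne.symm h4)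
  · rw [hm] at h1
    exact h1

theorem exists_down {s : ℕ → ℝ} (hs : Antitone s) {l J : ℕ} (hl : l ≤ J) (h : s l ≠ s J) :
    ∃ m, l ≤ m ∧ m + 1 ≤ J ∧ s (m + 1) < s l ∧ s m = s l := by
  classical
  have hlt : s J < s l := lt_of_le_of_ne (hs hl) (Ne.symm h)
  have hex : ∃ j, s j < s l := ⟨J, hlt⟩
  have h1 := Nat.find_spec hex
  have h2 : Nat.find hex ≤ J := Nat.find_min' hex hlt
  have h3 : l < Nat.find hex := by
    by_contra hle
    push Not at hle
    exact absurd (hs hle) (not_le.mpr h1)
  obtain ⟨m, hm⟩ := Nat.exists_eq_succ_of_ne_zero (show Nat.find hex ≠ 0 by omega)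
  refine ⟨m, by omega, by omega, ?_, ?_⟩
  · rw [hm] at h1
    exact h1
  · have h4 : ¬ s m < s l := Nat.find_min hex (by omega)
    exact le_antisymm (hs (by omega)) (not_lt.mp h4)

/-- The accumulated discount. -/
noncomputable def gam (s y : ℕ → ℝ) (l : ℕ) (L : ℝ) : ℝ :=
  ∑ m ∈ Finset.range l, (s m - s (m + 1)) * Real.exp (L * y (m + 1))

theorem gam_zero (s y : ℕ → ℝ) (L : ℝ) : gam s y 0 L = 0 := by
  simp [gam]

theorem gam_succ (s y : ℕ → ℝ) (l : ℕ) (L : ℝ) :
    gam s y (l + 1) L = gam s y l L + (s l - s (l + 1)) * Real.exp (L * y (l + 1)) := by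
  simp [gam, Finset.sum_range_succ]

theorem gam_contDiff (s y : ℕ → ℝ) (l : ℕ) : ContDiff ℝ 1 (gam s y l) := by
  unfold gam
  apply ContDiff.sum
  intro m _
  apply ContDiff.mul contDiff_const
  apply Real.contDiff_exp.comp
  exact contDiff_id.mul contDiff_const

theorem gam_upper {s y : ℕ → ℝ} (hs : Antitone s) (hy : Antitone y) {m l : ℕ} (hml : m ≤ l)
    {L : ℝ} (hL : 0 ≤ L) :
    gam s y l L - gam s y m L ≤ (s m - s l) * Real.exp (L * y (m + 1)) := by
  induction l, hml using Nat.le_induction with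
  | base => simp
  | succ l hl ih =>
    rw [gam_succ]
    have h1 : (s l - s (l + 1)) * Real.exp (L * y (l + 1)) ≤
        (s l - s (l + 1)) * Real.exp (L * y (m + 1)) := by
      apply mul_le_mul_of_nonneg_left
      · apply Real.exp_le_exp.mpr
        apply mul_le_mul_of_nonneg_left _ hL
        exact hy (by omega)
      · have := hs (Nat.le_succ l)
        simp only [Nat.succ_eq_add_one] at this
        linarith
    nlinarith [h1, ih]

theorem gam_lower {s y : ℕ → ℝ} (hs : Antitone s) (hy : Antitone y) {l m : ℕ} (hlm : l ≤ m)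
    {L : ℝ} (hL : 0 ≤ L) :
    (s l - s m) * Real.exp (L * y m) ≤ gam s y m L - gam s y l L := by
  induction m, hlm using Nat.le_induction with
  | base => simp
  | succ m hm ih =>
    rw [gam_succ]
    have h1 : (s l - s m) * Real.exp (L * y (m + 1)) ≤ (s l - s m) * Real.exp (L * y m) := by
      apply mul_le_mul_of_nonneg_left
      · apply Real.exp_le_exp.mpr
        apply mul_le_mul_of_nonneg_left _ hL
        exact hy (by omega)
      · have := hs hm
        linarith
    nlinarith [h1, ih]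

/-! ### Comparisons -/

theorem cmp_up {n : ℕ} {p r : Fin n} (hr : r.val = p.val + 1) {w' c x : Fin n → ℝ} {s t : ℝ}
    (h1 : ∀ j, j ≤ p → w' j = c j) (h2 : ∀ j, r ≤ j → c j = t) (h3 : ∀ j, r ≤ j → w' j ≤ s)
    (hst : s ≤ t) (hx : ∀ j, 0 < x j) :
    (t - s) * x r ≤ ∑ j, c j * x j - ∑ j, w' j * x j := by
  rw [← Finset.sum_sub_distrib]
  have hterm : ∀ j, 0 ≤ c j * x j - w' j * x j := by
    intro j
    rcases le_or_gt j p with hj | hj
    · rw [h1 j hj]; simp
    · have hj' : r ≤ j := by
        rw [Fin.le_def, hr]; rw [Fin.lt_def] at hj; omega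
      rw [h2 j hj', ← sub_mul]
      exact mul_nonneg (by linarith [h3 j hj']) (hx j).le
  calc (t - s) * x r ≤ c r * x r - w' r * x r := by
        rw [h2 r le_rfl, ← sub_mul]
        exact mul_le_mul_of_nonneg_right (by linarith [h3 r le_rfl]) (hx r).le
    _ ≤ ∑ j, (c j * x j - w' j * x j) :=
        Finset.single_le_sum (f := fun j => c j * x j - w' j * x j) (fun j _ => hterm j)
          (Finset.mem_univ r)

theorem cmp_down {n : ℕ} {p r : Fin n} (hr : r.val = p.val + 1) {w' c x : Fin n → ℝ} {s t : ℝ}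
    (h1 : ∀ j, j ≤ p → w' j = c j) (h2 : ∀ j, r ≤ j → c j = t) (h3 : ∀ j, r ≤ j → w' j ≤ s)
    (hst : t ≤ s) (hx : ∀ j, 0 < x j) (hxa : Antitone x) :
    ∑ j, w' j * x j - ∑ j, c j * x j ≤ (s - t) * (n * x r) := by
  rw [← Finset.sum_sub_distrib]
  have hterm : ∀ j, w' j * x j - c j * x j ≤ (s - t) * x r := by
    intro j
    rcases le_or_gt j p with hj | hj
    · rw [h1 j hj]
      simp only [sub_self]
      exact mul_nonneg (by linarith) (hx r).le
    · have hj' : r ≤ j := by
        rw [Fin.le_def, hr]; rw [Fin.lt_def] at hj; omega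
      rw [h2 j hj', ← sub_mul]
      calc (w' j - t) * x j ≤ (s - t) * x j :=
            mul_le_mul_of_nonneg_right (by linarith [h3 j hj']) (hx j).le
        _ ≤ (s - t) * x r := mul_le_mul_of_nonneg_left (hxa hj') (by linarith)
  calc ∑ j, (w' j * x j - c j * x j) ≤ ∑ _j : Fin n, (s - t) * x r :=
        Finset.sum_le_sum (fun j _ => hterm j)
    _ = (s - t) * (n * x r) := by
        rw [Finset.sum_const, Finset.card_univ, Fintype.card_fin, nsmul_eq_mul]; ring

/-! ### Gap algebra -/

/-- The vector `w` with all coordinates after `p` replaced by `s`. -/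
noncomputable def chv {n : ℕ} (p : Fin n) (w : Fin n → ℝ) (s : ℝ) : Fin n → ℝ :=
  fun j => if j ≤ p then w j else s

/-- The part of the scalar product coming from the prefix. -/
noncomputable def pre {n : ℕ} (p : Fin n) (w : Fin n → ℝ) (u : Fin n → ℤ) : ℝ :=
  ∑ j, if j ≤ p then w j * (u j : ℝ) else 0

theorem chv_le {n : ℕ} {p : Fin n} {w : Fin n → ℝ} {s : ℝ} {j : Fin n} (h : j ≤ p) :
    chv p w s j = w j := by
  simp [chv, h]

theorem chv_gt {n : ℕ} {p : Fin n} {w : Fin n → ℝ} {s : ℝ} {j : Fin n} (h : ¬ j ≤ p) :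
    chv p w s j = s := by
  simp [chv, h]

theorem sum_chv {n : ℕ} {p r : Fin n} (hr : r.val = p.val + 1) (w : Fin n → ℝ) (s : ℝ)
    (u : Fin n → ℤ) (hu : ∀ j, r < j → u j = 0) :
    ∑ j, chv p w s j * (u j : ℝ) = pre p w u + s * (u r : ℝ) := by
  unfold pre
  have : s * (u r : ℝ) = ∑ j, if j = r then s * (u j : ℝ) else 0 := by
    simp
  rw [this, ← Finset.sum_add_distrib]
  apply Finset.sum_congr rfl
  intro j _
  rcases le_or_gt j p with hj | hj
  · have hne : j ≠ r := by
      intro h; rw [h, Fin.le_def, hr] at hj; omega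
    rw [chv_le hj, if_pos hj, if_neg hne, add_zero]
  · rw [chv_gt (not_le.mpr hj), if_neg (not_le.mpr hj)]
    by_cases hjr : j = r
    · rw [if_pos hjr, zero_add]
    · rw [if_neg hjr, add_zero]
      have : r < j := by
        rw [Fin.lt_def] at hj ⊢
        have : j.val ≠ r.val := fun h => hjr (Fin.ext h)
        omega
      rw [hu j this]; simp

theorem sum_pre {n : ℕ} {p : Fin n} (w : Fin n → ℝ)
    (u : Fin n → ℤ) (hu : ∀ j : Fin n, p.val + 1 ≤ j.val → u j = 0) :
    ∑ j, w j * (u j : ℝ) = pre p w u := by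
  unfold pre
  apply Finset.sum_congr rfl
  intro j _
  by_cases hj : j ≤ p
  · rw [if_pos hj]
  · rw [if_neg hj, hu j (by rw [Fin.le_def] at hj; omega)]; simp

theorem pre_comb {n : ℕ} {p : Fin n} (w : Fin n → ℝ) (u v : Fin n → ℤ) (a b : ℤ) :
    pre p w (fun j => a * v j - b * u j) = a * pre p w v - b * pre p w u := by
  unfold pre
  rw [Finset.mul_sum, Finset.mul_sum, ← Finset.sum_sub_distrib]
  apply Finset.sum_congr rfl
  intro j _
  by_cases hj : j ≤ p
  · simp only [if_pos hj]; push_cast; ring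
  · simp only [if_neg hj]; ring

theorem elim {n q q' : ℕ} {p r : Fin n} (hr : r.val = p.val + 1) {κ' U s : ℝ} {w : Fin n → ℝ}
    (hG : Gap n (p.val + 1) q' κ' U w) (hq : 2 * q ^ 2 ≤ q') {u v : Fin n → ℤ}
    (hu : ∀ j, |u j| ≤ (q : ℤ)) (hv : ∀ j, |v j| ≤ (q : ℤ))
    (hu' : ∀ j, r < j → u j = 0) (hv' : ∀ j, r < j → v j = 0) (hur : u r ≠ 0)
    (hu0 : ∑ j, chv p w s j * (u j : ℝ) = 0) :
    ∑ j, chv p w s j * (v j : ℝ) = 0 ∨
      κ' * U ≤ q * |∑ j, chv p w s j * (v j : ℝ)| := by
  have hz : ∀ j : Fin n, p.val + 1 ≤ j.val → (fun j => u r * v j - v r * u j) j = 0 := by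
    intro j hj
    by_cases hjr : j = r
    · subst hjr; simp; ring
    · have : r < j := by
        rw [Fin.lt_def]
        have : j.val ≠ r.val := fun h => hjr (Fin.ext h)
        omega
      simp [hu' j this, hv' j this]
  have hb : ∀ j, |(fun j => u r * v j - v r * u j) j| ≤ (q' : ℤ) := by
    intro j
    have h1 : |u r * v j| ≤ (q : ℤ) * q := by
      rw [abs_mul]; exact mul_le_mul (hu r) (hv j) (abs_nonneg _) (by positivity)
    have h2 : |v r * u j| ≤ (q : ℤ) * q := by
      rw [abs_mul]; exact mul_le_mul (hv r) (hu j) (abs_nonneg _) (by positivity)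
    have h3 : |u r * v j - v r * u j| ≤ |u r * v j| + |v r * u j| := abs_sub _ _
    have h4 : (2 * (q : ℤ) ^ 2) ≤ q' := by exact_mod_cast hq
    simp only
    nlinarith
  have hD : ∑ j, w j * (((fun j => u r * v j - v r * u j) j : ℤ) : ℝ)
      = (u r : ℝ) * ∑ j, chv p w s j * (v j : ℝ) := by
    rw [sum_pre w _ hz, pre_comb, sum_chv hr w s v hv']
    rw [sum_chv hr w s u hu'] at hu0
    have : pre p w u = - (s * (u r : ℝ)) := by linarith
    rw [this]; ring
  rcases hG _ hb hz with h | h
  · left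
    rw [hD] at h
    rcases mul_eq_zero.mp h with h' | h'
    · exact absurd (by exact_mod_cast h') hur
    · exact h'
  · right
    rw [hD, abs_mul] at h
    refine h.trans ?_
    apply mul_le_mul_of_nonneg_right _ (abs_nonneg _)
    have := hu r
    have h5 : ((|u r| : ℤ) : ℝ) ≤ ((q : ℤ) : ℝ) := by exact_mod_cast this
    simpa using h5

/-- Special values of the next coordinate. -/
def Spc {n : ℕ} (p r : Fin n) (q : ℕ) (w : Fin n → ℝ) (s : ℝ) : Prop :=
  ∃ u : Fin n → ℤ, (∀ j, |u j| ≤ (q : ℤ)) ∧ (∀ j, r < j → u j = 0) ∧ u r ≠ 0 ∧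
    ∑ j, chv p w s j * (u j : ℝ) = 0

theorem spc_sep {n q q' : ℕ} {p r : Fin n} (hr : r.val = p.val + 1) {κ κ' U : ℝ} {w : Fin n → ℝ}
    (hG : Gap n (p.val + 1) q' κ' U w) (hq : 2 * q ^ 2 ≤ q') (hU : 1 ≤ U) (hκ : 1 ≤ κ)
    (hq1 : 1 ≤ q)
    (hκ' : 4 * (q : ℝ) ^ 2 * κ * (κ + 1) ≤ κ')
    (s s' : ℝ) (hs : Spc p r q w s) (hs' : Spc p r q w s') (hne : s ≠ s') :
    2 * (2 * κ * U) ≤ |s - s'| := by
  obtain ⟨u, hu1, hu2, hu3, hu4⟩ := hs
  obtain ⟨v, hv1, hv2, hv3, hv4⟩ := hs'
  have hD : ∑ j, chv p w s j * (v j : ℝ) = (s - s') * (v r : ℝ) := by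
    rw [sum_chv hr w s v hv2]
    rw [sum_chv hr w s' v hv2] at hv4
    linarith
  have hvr : (v r : ℝ) ≠ 0 := by exact_mod_cast hv3
  have hqR : (1 : ℝ) ≤ q := by exact_mod_cast hq1
  rcases elim hr hG hq hu1 hv1 hu2 hv2 hu3 hu4 with h | h
  · rw [hD] at h
    rcases mul_eq_zero.mp h with h' | h'
    · exact absurd (by linarith) hne
    · exact absurd h' hvr
  · rw [hD, abs_mul] at h
    have h5 : |(v r : ℝ)| ≤ q := by
      have h6 : ((|v r| : ℤ) : ℝ) ≤ ((q : ℤ) : ℝ) := by exact_mod_cast hv1 r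
      simpa using h6
    have h7 : κ' * U ≤ (q : ℝ) ^ 2 * |s - s'| := by
      have h8 : |s - s'| * |(v r : ℝ)| ≤ |s - s'| * q :=
        mul_le_mul_of_nonneg_left h5 (abs_nonneg _)
      nlinarith
    have h9 : 4 * (q : ℝ) ^ 2 * κ * (κ + 1) * U ≤ κ' * U :=
      mul_le_mul_of_nonneg_right hκ' (by linarith)
    have h10 : (q : ℝ) ^ 2 * (4 * κ * U) ≤ (q : ℝ) ^ 2 * |s - s'| := by
      have : (q : ℝ) ^ 2 * (4 * κ * U) ≤ 4 * (q : ℝ) ^ 2 * κ * (κ + 1) * U := by
        have h11 : 0 ≤ (q : ℝ) ^ 2 * (4 * κ * U) := by positivity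
        nlinarith
      linarith
    have h12 : 0 < (q : ℝ) ^ 2 := by positivity
    have := le_of_mul_le_mul_left h10 h12
    linarith

/-- The top value is special. -/
theorem spc_top {n q : ℕ} {p r : Fin n} (hr : r.val = p.val + 1) (w : Fin n → ℝ) (hq : 1 ≤ q) :
    Spc p r q w (w p) := by
  have hpr : p ≠ r := by
    intro h; rw [h] at hr; omega
  refine ⟨fun j => if j = p then 1 else if j = r then -1 else 0, ?_, ?_, ?_, ?_⟩
  · intro j
    by_cases h1 : j = p
    · simp [h1]; exact_mod_cast hq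
    · by_cases h2 : j = r
      · subst h2; simp [h1]; exact_mod_cast hq
      · simp [h1, h2]
  · intro j hj
    have h1 : j ≠ r := ne_of_gt hj
    have h2 : j ≠ p := by
      intro h; rw [h, Fin.lt_def, hr] at hj; omega
    simp [h1, h2]
  · simp [hpr.symm]
  · rw [sum_chv hr]
    · unfold pre
      have h1 : ∀ j, (if j ≤ p then w j * (((if j = p then 1 else if j = r then -1 else 0 : ℤ)) : ℝ)
          else 0) = if j = p then w p else 0 := by
        intro j
        by_cases h1 : j = p
        · subst h1; simp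
        · by_cases h2 : j = r
          · subst h2
            have : ¬ j ≤ p := by rw [Fin.le_def, hr]; omega
            simp [this, h1]
          · simp [h1, h2]
      rw [Finset.sum_congr rfl (fun j _ => h1 j)]
      simp [hpr.symm]
    · intro j hj
      have h1 : j ≠ r := ne_of_gt hj
      have h2 : j ≠ p := by
        intro h; rw [h, Fin.lt_def, hr] at hj; omega
      simp [h1, h2]

/-- Gap property of a child. -/
theorem gap_child {n q q' : ℕ} {p r : Fin n} (hr : r.val = p.val + 1) {κ κ' U s Uc : ℝ}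
    {w : Fin n → ℝ}
    (hG : Gap n (p.val + 1) q' κ' U w) (hq : 2 * q ^ 2 ≤ q') (hU : 1 ≤ U) (hκ : 1 ≤ κ)
    (hq1 : 1 ≤ q)
    (hκ' : 4 * (q : ℝ) ^ 2 * κ * (κ + 1) ≤ κ')
    (h : (Spc p r q w s ∧ Uc ≤ (2 * κ + 2) * U) ∨
      ((∀ s', Spc p r q w s' → 2 * κ * U ≤ |s - s'|) ∧ Uc ≤ 2 * U)) :
    Gap n (r.val + 1) q κ Uc (chv p w s) := by
  intro v hv1 hv2
  have hqR : (1 : ℝ) ≤ q := by exact_mod_cast hq1
  have hv2' : ∀ j, r < j → v j = 0 := fun j hj => hv2 j (by rw [Fin.lt_def] at hj; omega)
  have hUc : Uc ≤ (2 * κ + 2) * U := by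
    rcases h with h | h
    · exact h.2
    · have : 0 ≤ κ * U := by positivity
      nlinarith [h.2]
  have hκUc : κ * Uc ≤ κ * ((2 * κ + 2) * U) := mul_le_mul_of_nonneg_left hUc (by linarith)
  have hbig : (q : ℝ) * (κ * ((2 * κ + 2) * U)) ≤ κ' * U := by
    have h9 : 4 * (q : ℝ) ^ 2 * κ * (κ + 1) * U ≤ κ' * U :=
      mul_le_mul_of_nonneg_right hκ' (by linarith)
    have h10 : (q : ℝ) * (κ * ((2 * κ + 2) * U)) ≤ 4 * (q : ℝ) ^ 2 * κ * (κ + 1) * U := by
      have h11 : 0 ≤ κ * (κ + 1) * U := by positivity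
      have h12 : (q : ℝ) ≤ (q : ℝ) ^ 2 := by nlinarith
      have h13 : (q : ℝ) * (κ * (κ + 1) * U) ≤ (q : ℝ) ^ 2 * (κ * (κ + 1) * U) :=
        mul_le_mul_of_nonneg_right h12 h11
      have h14 : 0 ≤ (q : ℝ) ^ 2 * (κ * (κ + 1) * U) := by positivity
      nlinarith
    linarith
  by_cases hvr : v r = 0
  · -- support in the prefix
    have hv3 : ∀ j : Fin n, p.val + 1 ≤ j.val → v j = 0 := by
      intro j hj
      by_cases hjr : j = r
      · rw [hjr]; exact hvr
      · apply hv2'
        rw [Fin.lt_def]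
        have : j.val ≠ r.val := fun h => hjr (Fin.ext h)
        omega
    have hv4 : ∀ j, |v j| ≤ (q' : ℤ) := by
      intro j
      refine (hv1 j).trans ?_
      have : q ≤ q' := by nlinarith
      exact_mod_cast this
    have h1 : ∑ j, chv p w s j * (v j : ℝ) = ∑ j, w j * (v j : ℝ) := by
      rw [sum_chv hr w s v hv2', hvr, sum_pre w v hv3]; simp
    rw [h1]
    rcases hG v hv4 hv3 with h2 | h2
    · left; exact h2
    · right
      refine le_trans ?_ h2
      have h3 : κ * ((2 * κ + 2) * U) ≤ (q : ℝ) * (κ * ((2 * κ + 2) * U)) := by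
        have : 0 ≤ κ * ((2 * κ + 2) * U) := by positivity
        nlinarith
      linarith
  · rcases h with ⟨⟨u, hu1, hu2, hu3, hu4⟩, _⟩ | ⟨h1, h2⟩
    · rcases elim hr hG hq hu1 hv1 hu2 hv2' hu3 hu4 with h | h
      · left; exact h
      · right
        have hq0 : (0 : ℝ) < q := by linarith
        have : (q : ℝ) * (κ * Uc) ≤ q * |∑ j, chv p w s j * (v j : ℝ)| := by
          have h3 : (q : ℝ) * (κ * Uc) ≤ q * (κ * ((2 * κ + 2) * U)) :=
            mul_le_mul_of_nonneg_left hκUc hq0.le
          linarith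
        exact le_of_mul_le_mul_left this hq0
    · -- nonspecial
      right
      have hvrR : (v r : ℝ) ≠ 0 := by exact_mod_cast hvr
      have hspc : Spc p r q w (-(pre p w v) / (v r : ℝ)) := by
        refine ⟨v, hv1, hv2', hvr, ?_⟩
        rw [sum_chv hr w _ v hv2']
        field_simp
        ring
      have h3 := h1 _ hspc
      have h4 : ∑ j, chv p w s j * (v j : ℝ) = (v r : ℝ) * (s - -(pre p w v) / (v r : ℝ)) := by
        rw [sum_chv hr w s v hv2']
        field_simp
        ring
      rw [h4, abs_mul]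
      have h5 : (1 : ℝ) ≤ |(v r : ℝ)| := by
        have : (1 : ℤ) ≤ |v r| := Int.one_le_abs hvr
        have h6 : ((1 : ℤ) : ℝ) ≤ ((|v r| : ℤ) : ℝ) := by exact_mod_cast this
        simpa using h6
      have h6 : κ * Uc ≤ 2 * κ * U := by nlinarith
      calc κ * Uc ≤ 2 * κ * U := h6
        _ ≤ |s - -(pre p w v) / (v r : ℝ)| := h3
        _ ≤ |(v r : ℝ)| * |s - -(pre p w v) / (v r : ℝ)| := by
            have : 0 ≤ |s - -(pre p w v) / (v r : ℝ)| := abs_nonneg _
            nlinarith

/-! ### The recursion step -/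

theorem eventually_exp_ge (A δ : ℝ) (hδ : 0 < δ) : ∀ᶠ L in atTop, A ≤ δ * Real.exp L := by
  have h := Real.tendsto_exp_atTop.eventually_ge_atTop (A / δ)
  filter_upwards [h] with L hL
  rw [div_le_iff₀ hδ] at hL
  linarith

set_option maxHeartbeats 4000000 in
theorem tree_step {n Q q q' : ℕ} {κ κ' : ℝ} (hq1 : 1 ≤ q) (hκ : 1 ≤ κ) (hq : 2 * q ^ 2 ≤ q')
    (hκ' : 4 * (q : ℝ) ^ 2 * κ * (κ + 1) ≤ κ') {p r : Fin n} (hr : r.val = p.val + 1)
    (ih : ∀ (w : Fin n → ℝ), (∀ j, r ≤ j → w j = w r) → ∀ (U M : ℝ), 1 ≤ U →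
      Gap n (r.val + 1) q κ U w → TreeConcl n Q r w U M)
    (w : Fin n → ℝ) (hw : ∀ j, p ≤ j → w j = w p) (U M : ℝ) (hU : 1 ≤ U)
    (hG : Gap n (p.val + 1) q' κ' U w) : TreeConcl n Q p w U M := by
  classical
  have hpr : p < r := by rw [Fin.lt_def, hr]; omega
  have hU0 : (0 : ℝ) < U := by linarith
  obtain ⟨snap, hmono, hspec, hfix⟩ := exists_snap (Spc p r q w) (2 * κ * U) (by positivity)
    (fun s s' hs hs' hne => spc_sep hr hG hq hU hκ hq1 hκ' s s' hs hs' hne)
  set b := w p with hb
  let y : ℕ → ℝ := fun l => b - l * U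
  let s : ℕ → ℝ := fun l => snap (y l)
  have hy : Antitone y := by
    intro l m hlm
    have h1 : (l : ℝ) ≤ m := by exact_mod_cast hlm
    have h2 : (l : ℝ) * U ≤ m * U := mul_le_mul_of_nonneg_right h1 hU0.le
    simp only [y]; linarith
  have hs : Antitone s := fun l m hlm => hmono (hy hlm)
  have hs0 : s 0 = b := by
    have : y 0 = b := by simp [y]
    simp only [s, this]
    exact hfix b (spc_top hr w hq1)
  have hysucc : ∀ l, y (l + 1) = y l - U := by
    intro l; simp only [y]; push_cast; ring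
  obtain ⟨J, hJ⟩ : ∃ J : ℕ, y J ≤ -M := by
    obtain ⟨J, hJ⟩ := exists_nat_ge ((b + M) / U)
    refine ⟨J, ?_⟩
    rw [div_le_iff₀ hU0] at hJ
    simp only [y]; linarith
  let Uc : ℕ → ℝ := fun l => if Spc p r q w (s l) then (2 * κ + 2) * U else 2 * U
  have hκU : 0 ≤ κ * U := by positivity
  have hUc2 : ∀ l, 2 * U ≤ Uc l := by
    intro l
    by_cases h : Spc p r q w (s l)
    · simp only [Uc, if_pos h]; nlinarith
    · simp only [Uc, if_neg h]; exact le_rfl
  have hrad : ∀ l, |y l - s l| ≤ Uc l - 2 * U := by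
    intro l
    rcases hspec (y l) with ⟨h1, h2⟩ | ⟨h1, h2⟩
    · have h1' : Spc p r q w (s l) := h1
      simp only [Uc, if_pos h1']
      have h2' : |y l - s l| < 2 * κ * U := h2
      linarith
    · have h1' : s l = y l := h1
      rw [h1', sub_self, abs_zero]
      linarith [hUc2 l]
  have hchild : ∀ l, TreeConcl n Q r (chv p w (s l)) (Uc l) M := by
    intro l
    apply ih
    · intro j hj
      have h1 : ¬ j ≤ p := not_le.mpr (lt_of_lt_of_le hpr hj)
      rw [chv_gt h1, chv_gt (not_le.mpr hpr)]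
    · linarith [hUc2 l]
    · apply gap_child hr hG hq hU hκ hq1 hκ'
      rcases hspec (y l) with ⟨h1, h2⟩ | ⟨h1, h2⟩
      · left
        have h1' : Spc p r q w (s l) := h1
        refine ⟨h1', ?_⟩
        simp only [Uc, if_pos h1']; exact le_rfl
      · right
        have h1' : s l = y l := h1
        have h3 : ∀ s', Spc p r q w s' → 2 * κ * U ≤ |s l - s'| := by
          intro s' hs'; rw [h1']; exact h2 s' hs'
        refine ⟨h3, ?_⟩
        have h4 : ¬ Spc p r q w (s l) := by
          intro h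
          have := h3 _ h
          rw [sub_self, abs_zero] at this
          have : 0 < κ * U := by positivity
          linarith
        simp only [Uc, if_neg h4]; exact le_rfl
  choose ι hι T hroot hprop hloc using hchild
  have hC : ∀ l (i : ι l), ∃ C : ℝ, ∀ L : ℝ, 0 ≤ L → 0 ≤ (T l i).g L ∧
      (T l i).g L ≤ C * Real.exp (L * (chv p w (s l) r - Uc l)) := fun l i => (hprop l i).2.2.2.1
  choose C hCp using hC
  have hchr : ∀ l, chv p w (s l) r = s l := fun l => chv_gt (not_le.mpr hpr)
  -- properties of members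
  have hmem_le : ∀ l (i : ι l) j, j ≤ p → (T l i).w j = w j := by
    intro l i j hj
    rw [(hprop l i).1 j (hj.trans hpr.le), chv_le hj]
  have hmem_r : ∀ l (i : ι l), (T l i).w r = s l := by
    intro l i
    rw [(hprop l i).1 r le_rfl, hchr]
  have hmem_ge : ∀ l (i : ι l) j, r ≤ j → (T l i).w j ≤ s l := by
    intro l i j hj
    have := (hprop l i).2.1 r j le_rfl hj
    rwa [hmem_r] at this
  have hsb : ∀ l, s l ≤ b := by
    intro l; rw [← hs0]; exact hs (Nat.zero_le l)
  have hgam0 : ∀ l (L : ℝ), 0 ≤ gam s y l L := by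
    intro l L
    apply Finset.sum_nonneg
    intro m _
    apply mul_nonneg _ (Real.exp_pos _).le
    have := hs (Nat.le_succ m)
    simp only [Nat.succ_eq_add_one] at this
    linarith
  have : ∀ l, Fintype (ι l) := hι
  refine ⟨Σ l : Fin (J + 1), ι l.val, inferInstance,
    fun x => ⟨(T x.1.val x.2).w, fun L => gam s y x.1.val L + (T x.1.val x.2).g L,
      (T x.1.val x.2).U⟩, ?_, ?_, ?_⟩
  · -- root
    obtain ⟨i, hi1, hi2⟩ := hroot 0
    refine ⟨⟨⟨0, by omega⟩, i⟩, ?_, ?_⟩
    · simp only
      rw [hi1]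
      ext j
      by_cases hj : j ≤ p
      · rw [chv_le hj]
      · rw [chv_gt hj, hs0, hw j (not_le.mp hj).le]
    · simp only
      ext L
      rw [gam_zero, hi2]; simp
  · -- properties
    rintro ⟨⟨l, hl⟩, i⟩
    simp only
    refine ⟨fun j hj => hmem_le l i j hj, ?_, ?_, ?_, ?_, (hprop l i).2.2.2.2.2⟩
    · intro j j' hj hjj'
      rcases eq_or_lt_of_le hj with h | h
      · subst h
        rcases eq_or_lt_of_le hjj' with h' | h'
        · subst h'; exact le_rfl
        · have : r ≤ j' := by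
            rw [Fin.le_def, hr]; rw [Fin.lt_def] at h'; omega
          rw [hmem_le l i p le_rfl]
          exact (hmem_ge l i j' this).trans (hsb l)
      · have : r ≤ j := by
          rw [Fin.le_def, hr]; rw [Fin.lt_def] at h; omega
        exact (hprop l i).2.1 j j' this hjj'
    · exact (gam_contDiff s y l).add (hprop l i).2.2.1
    · refine ⟨(b - s l) + |C l i|, ?_⟩
      intro L hL
      refine ⟨add_nonneg (hgam0 l L) (hCp l i L hL).1, ?_⟩
      rw [add_mul]
      apply add_le_add
      · have h1 := gam_upper hs hy (Nat.zero_le l) hL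
        rw [gam_zero, sub_zero, hs0] at h1
        simp only [zero_add] at h1
        have h2 : y 1 = b - U := by simp [y]
        rw [h2] at h1
        exact h1
      · refine (hCp l i L hL).2.trans ?_
        rw [hchr]
        calc C l i * Real.exp (L * (s l - Uc l)) ≤ |C l i| * Real.exp (L * (s l - Uc l)) :=
              mul_le_mul_of_nonneg_right (le_abs_self _) (Real.exp_pos _).le
          _ ≤ |C l i| * Real.exp (L * (b - U)) := by
              apply mul_le_mul_of_nonneg_left _ (abs_nonneg _)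
              apply Real.exp_le_exp.mpr
              apply mul_le_mul_of_nonneg_left _ hL
              linarith [hsb l, hUc2 l]
    · have := (hprop l i).2.2.2.2.1
      linarith [hUc2 l]
  · -- localization
    have hE : ∀ᶠ L in atTop, ∀ l : Fin (J + 1), ∀ i : ι l.val, ∀ m : Fin (J + 1),
        s m ≠ s l → ((n : ℝ) + 1) * |s m - s l| + |C l i| ≤ |s m - s l| * Real.exp L := by
      rw [eventually_all]; intro l
      rw [eventually_all]; intro i
      rw [eventually_all]; intro m
      by_cases h : s m = s l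
      · exact Eventually.of_forall (fun L h' => absurd h h')
      · have := eventually_exp_ge (((n : ℝ) + 1) * |s m - s l| + |C l i|) |s m - s l|
          (abs_pos.mpr (sub_ne_zero.mpr h))
        filter_upwards [this] with L hL _
        exact hL
    have hL' : ∀ᶠ L in atTop, ∀ l : Fin (J + 1), ∀ (B : ℝ) (x : Fin n → ℝ), (∀ j, 0 < x j) →
        Antitone x →
        Real.log (x r) ≤ L * (chv p w (s l) r + Uc l) → (∀ j, -(L * M) ≤ Real.log (x j)) →
        (∀ i, ∑ j, (T l i).w j * x j ≤ B - (T l i).g L) →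
        ∀ i, ∑ j, (T l i).w j * x j = B - (T l i).g L →
          ∀ j, r < j → |Real.log (x j) - L * (T l i).w j| ≤ L * (T l i).U := by
      rw [eventually_all]; intro l
      exact hloc l
    filter_upwards [hE, hL', eventually_ge_atTop (0 : ℝ)] with L hE hloc' hL
    intro B x hx hxa hxp hxM hsat
    rintro ⟨⟨l, hl⟩, i⟩ hact
    simp only at hact
    have hUcpos := hUc2 l
    have hsat' : ∀ (m : Fin (J + 1)) (i : ι m.val),
        ∑ j, (T m i).w j * x j ≤ B - (gam s y m L + (T m i).g L) := fun m i => hsat ⟨m, i⟩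
    have hsatroot : ∀ (m : Fin (J + 1)), ∑ j, chv p w (s m) j * x j ≤ B - gam s y m L := by
      intro m
      obtain ⟨i, hi1, hi2⟩ := hroot m
      have := hsat' m i
      rw [hi1, hi2] at this
      simpa using this
    have hCl := hCp l i L hL
    rw [hchr] at hCl
    have hCabs : (T l i).g L ≤ |C l i| * Real.exp (L * (s l - Uc l)) :=
      hCl.2.trans (mul_le_mul_of_nonneg_right (le_abs_self _) (Real.exp_pos _).le)
    have hxr : 0 < x r := hx r
    -- upper bound
    have hup : Real.log (x r) ≤ L * (s l + Uc l) := by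
      by_cases h0 : s l = s 0
      · have h1 : Real.log (x r) ≤ Real.log (x p) := Real.log_le_log hxr (hxa hpr.le)
        have h2 : L * (b + U) ≤ L * (s l + Uc l) := by
          apply mul_le_mul_of_nonneg_left _ hL
          rw [h0, hs0]; linarith
        linarith
      · obtain ⟨m, hm1, hm2, hm3⟩ := exists_up hs h0
        have hmJ : m < J + 1 := by omega
        have h1 := hsatroot ⟨m, hmJ⟩
        have h2 := cmp_up hr (w' := (T l i).w) (c := chv p w (s m)) (x := x) (s := s l) (t := s m)
          (fun j hj => by rw [hmem_le l i j hj, chv_le hj])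
          (fun j hj => chv_gt (not_le.mpr (lt_of_lt_of_le hpr hj)))
          (fun j hj => hmem_ge l i j hj) hm2.le hx
        have h3 := gam_upper hs hy hm1.le hL
        have h4 := hE ⟨l, hl⟩ i ⟨m, hmJ⟩ (ne_of_gt hm2)
        simp only at h1 h4
        rw [abs_of_pos (show 0 < s m - s l by linarith)] at h4
        have h5 : y (m + 1) ≤ s l + Uc l - 2 * U := by
          have h6 := hrad (m + 1)
          rw [hm3] at h6
          have h7 : Uc (m + 1) = Uc l := by simp only [Uc, hm3]
          rw [h7] at h6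
          linarith [(abs_le.mp h6).2]
        set E := Real.exp (L * (s l + Uc l - 2 * U)) with hEdef
        have hEpos : 0 < E := Real.exp_pos _
        have h6 : Real.exp (L * y (m + 1)) ≤ E :=
          Real.exp_le_exp.mpr (mul_le_mul_of_nonneg_left h5 hL)
        have h7 : Real.exp (L * (s l - Uc l)) ≤ E := by
          apply Real.exp_le_exp.mpr
          apply mul_le_mul_of_nonneg_left _ hL
          linarith
        have h8 : (s m - s l) * x r ≤ (s m - s l) * E + |C l i| * E := by
          have h9 : (s m - s l) * Real.exp (L * y (m + 1)) ≤ (s m - s l) * E :=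
            mul_le_mul_of_nonneg_left h6 (by linarith)
          have h10 : |C l i| * Real.exp (L * (s l - Uc l)) ≤ |C l i| * E :=
            mul_le_mul_of_nonneg_left h7 (abs_nonneg _)
          linarith
        have h9 : Real.exp L * E ≤ Real.exp (L * (s l + Uc l)) := by
          rw [hEdef, ← Real.exp_add]
          apply Real.exp_le_exp.mpr
          nlinarith
        have hn : (0 : ℝ) ≤ n := Nat.cast_nonneg n
        have h10 : (s m - s l) * x r ≤ (s m - s l) * Real.exp (L * (s l + Uc l)) := by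
          have h11 : ((s m - s l) + |C l i|) * E ≤ ((s m - s l) * Real.exp L) * E := by
            apply mul_le_mul_of_nonneg_right _ hEpos.le
            have : 0 ≤ (n : ℝ) * (s m - s l) := mul_nonneg hn (by linarith)
            linarith
          have h12 : (s m - s l) * (Real.exp L * E) ≤
              (s m - s l) * Real.exp (L * (s l + Uc l)) :=
            mul_le_mul_of_nonneg_left h9 (by linarith)
          nlinarith
        have h11 : x r ≤ Real.exp (L * (s l + Uc l)) :=
          le_of_mul_le_mul_left h10 (by linarith)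
        have h12 := Real.log_le_log hxr h11
        rwa [Real.log_exp] at h12
    -- lower bound
    have hlow : L * (s l - Uc l) ≤ Real.log (x r) := by
      by_cases h0 : s l = s J
      · have h1 := hxM r
        have h2 := hrad J
        have h3 : Uc J = Uc l := by simp only [Uc, h0]
        rw [h3, ← h0] at h2
        have h4 : s l - Uc l ≤ -M := by linarith [(abs_le.mp h2).1]
        have h5 := mul_le_mul_of_nonneg_left h4 hL
        linarith
      · obtain ⟨m, hm1, hm2, hm3, hm4⟩ := exists_down hs (by omega) h0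
        have hmJ : m + 1 < J + 1 := by omega
        have h1 := hsatroot ⟨m + 1, hmJ⟩
        have h2 := cmp_down hr (w' := (T l i).w) (c := chv p w (s (m + 1))) (x := x) (s := s l)
          (t := s (m + 1))
          (fun j hj => by rw [hmem_le l i j hj, chv_le hj])
          (fun j hj => chv_gt (not_le.mpr (lt_of_lt_of_le hpr hj)))
          (fun j hj => hmem_ge l i j hj) hm3.le hx hxa
        have h3 := gam_lower hs hy (show l ≤ m + 1 by omega) hL
        have h4 := hE ⟨l, hl⟩ i ⟨m + 1, hmJ⟩ (ne_of_lt hm3)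
        simp only at h1 h4
        rw [abs_of_neg (show s (m + 1) - s l < 0 by linarith)] at h4
        have h5 : s l - Uc l + U ≤ y (m + 1) := by
          have h6 := hrad m
          rw [hm4] at h6
          have h7 : Uc m = Uc l := by simp only [Uc, hm4]
          rw [h7] at h6
          rw [hysucc]
          linarith [(abs_le.mp h6).1]
        set E := Real.exp (L * (s l - Uc l)) with hEdef
        have hEpos : 0 < E := Real.exp_pos _
        have h6 : Real.exp L * E ≤ Real.exp (L * y (m + 1)) := by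
          rw [hEdef, ← Real.exp_add]
          apply Real.exp_le_exp.mpr
          have := mul_le_mul_of_nonneg_left h5 hL
          nlinarith
        set δ := s l - s (m + 1) with hδ
        have hδpos : 0 < δ := by linarith
        have h4' : ((n : ℝ) + 1) * δ + |C l i| ≤ δ * Real.exp L := by
          have h41 : -(s (m + 1) - s l) = δ := by rw [hδ]; ring
          rw [h41] at h4
          exact h4
        have h7 : δ * (n * x r) ≥ δ * Real.exp (L * y (m + 1)) - |C l i| * E := by
          linarith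
        have h8 : δ * (Real.exp L * E) ≤ δ * Real.exp (L * y (m + 1)) :=
          mul_le_mul_of_nonneg_left h6 hδpos.le
        have h9 : (((n : ℝ) + 1) * δ + |C l i|) * E ≤ (δ * Real.exp L) * E :=
          mul_le_mul_of_nonneg_right h4' hEpos.le
        have h10 : ((n : ℝ) + 1) * δ * E ≤ δ * (n * x r) := by nlinarith
        have hn : 0 < n := lt_of_le_of_lt (Nat.zero_le _) p.isLt
        have hnR : (0 : ℝ) < n := by exact_mod_cast hn
        have h11 : (n : ℝ) * δ * E ≤ (n : ℝ) * δ * x r := by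
          have : 0 ≤ δ * E := by positivity
          nlinarith
        have h12 : E ≤ x r := le_of_mul_le_mul_left h11 (by positivity)
        have h13 := Real.log_le_log hEpos h12
        rwa [hEdef, Real.log_exp] at h13
    -- conclusion
    have hfinal := hloc' ⟨l, hl⟩ (B - gam s y l L) x hx hxa (by rw [hchr]; exact hup) hxM
      (fun i' => by have := hsat' ⟨l, hl⟩ i'; simp only at this; linarith) i
      (by simp only; linarith)
    intro j hj
    rcases eq_or_lt_of_le (show r ≤ j by rw [Fin.le_def, hr]; rw [Fin.lt_def] at hj; omega) with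
      h | h
    · subst h
      simp only
      rw [hmem_r]
      have hUU := (hprop l i).2.2.2.2.1
      have : L * Uc l ≤ L * (T l i).U := mul_le_mul_of_nonneg_left hUU hL
      rw [abs_le]
      constructor <;> nlinarith
    · exact hfinal j h

/-! ### Conclusion -/

/-- Bounds for the integer vectors. -/
def qSeq (Q : ℕ) : ℕ → ℕ
  | 0 => max Q 1
  | (k + 1) => 2 * (qSeq Q k) ^ 2

/-- Gap constants. -/
noncomputable def kSeq (n Q : ℕ) : ℕ → ℝ
  | 0 => n * Q + 1
  | (k + 1) => 4 * (qSeq Q k : ℝ) ^ 2 * kSeq n Q k * (kSeq n Q k + 1)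

theorem one_le_qSeq (Q : ℕ) : ∀ k, 1 ≤ qSeq Q k
  | 0 => le_max_right _ _
  | (k + 1) => by
      have := one_le_qSeq Q k
      simp only [qSeq]
      nlinarith

theorem le_qSeq (Q : ℕ) : ∀ k, Q ≤ qSeq Q k
  | 0 => le_max_left _ _
  | (k + 1) => by
      have h1 := one_le_qSeq Q k
      have h2 := le_qSeq Q k
      simp only [qSeq]
      nlinarith

theorem one_le_kSeq (n Q : ℕ) : ∀ k, 1 ≤ kSeq n Q k
  | 0 => by
      simp only [kSeq]
      have : (0 : ℝ) ≤ (n : ℝ) * Q := by positivity
      linarith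
  | (k + 1) => by
      have h1 := one_le_kSeq n Q k
      have h2 : (1 : ℝ) ≤ qSeq Q k := by exact_mod_cast one_le_qSeq Q k
      simp only [kSeq]
      have h3 : (1 : ℝ) ≤ (qSeq Q k : ℝ) ^ 2 := by nlinarith
      have h4 : (1 : ℝ) ≤ (qSeq Q k : ℝ) ^ 2 * kSeq n Q k := by nlinarith
      nlinarith

theorem tree_base {n Q : ℕ} {q : ℕ} {κ : ℝ} (hq : Q ≤ q) (hκ : (n : ℝ) * Q + 1 ≤ κ)
    {p : Fin n} (hp : p.val + 1 = n) (w : Fin n → ℝ) (hw : ∀ j, p ≤ j → w j = w p) (U M : ℝ)
    (hU : 1 ≤ U) (hG : Gap n (p.val + 1) q κ U w) : TreeConcl n Q p w U M := by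
  refine ⟨Unit, inferInstance, fun _ => ⟨w, fun _ => 0, U⟩, ⟨(), rfl, rfl⟩, ?_, ?_⟩
  · intro _
    simp only
    refine ⟨fun _ _ => trivial, ?_, contDiff_const, ⟨0, ?_⟩, le_rfl, ?_⟩
    · intro j j' hj hjj'
      rw [hw j hj, hw j' (hj.trans hjj')]
    · intro L _
      simp
    · intro v hv1 hv2
      have h1 : ∀ j, |v j| ≤ (q : ℤ) := fun j => (hv1 j).trans (by exact_mod_cast hq)
      have h2 : ∀ j : Fin n, p.val + 1 ≤ j.val → v j = 0 := by
        intro j hj; exact absurd j.isLt (by omega)
      rcases hG v h1 h2 with h | h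
      · left; exact h
      · right
        refine le_trans ?_ h
        exact mul_le_mul_of_nonneg_right hκ (by linarith)
  · apply Eventually.of_forall
    intro L B x _ _ _ _ _ _ _ j hj
    rw [Fin.lt_def] at hj
    exact absurd j.isLt (by omega)

theorem treeStmt : TreeStmt := by
  intro n Q
  refine ⟨qSeq Q, kSeq n Q, le_qSeq Q, one_le_kSeq n Q, ?_⟩
  intro p k
  induction k generalizing p with
  | zero =>
    intro hp w hw U M hU hG
    exact tree_base (le_qSeq Q 0) (by simp [kSeq]) (by omega) w hw U M hU hG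
  | succ k ih =>
    intro hp w hw U M hU hG
    have hr : p.val + 1 < n := by omega
    exact tree_step (p := p) (r := ⟨p.val + 1, hr⟩) (one_le_qSeq Q k) (one_le_kSeq n Q k)
      (by simp only [qSeq]; exact le_rfl) (by simp only [kSeq]; exact le_rfl) rfl
      (fun w hw U M hU hG => ih ⟨p.val + 1, hr⟩ (by simp only; omega) w hw U M hU hG)
      w hw U M hU hG

end Crest.Agent.R092
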